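import Mathlib

/-!
Row 207 (S0320): solutions of the reduced system (W), (K) in the `x`-gauge, given by their jets.
-/

set_option autoImplicit false

open Set

namespace Crest.Agent.N207.S

noncomputable section

/-- `u j t x` is the `j`-th `x`-derivative of `u 0`, `v j t x` its time derivative, on the
rectangle `[t0,t1] × [0,xs]`. -/
structure Jet (t0 t1 xs : ℝ) (u v : ℕ → ℝ → ℝ → ℝ) : Prop where
  cu : ∀ j, ContinuousOn (fun p : ℝ × ℝ => u j p.1 p.2) (Icc t0 t1 ×ˢ Icc 0 xs)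
  cv : ∀ j, ContinuousOn (fun p : ℝ × ℝ => v j p.1 p.2) (Icc t0 t1 ×ˢ Icc 0 xs)
  dx : ∀ j t x, t ∈ Icc t0 t1 → x ∈ Icc 0 xs →
    HasDerivWithinAt (u j t) (u (j + 1) t x) (Icc 0 xs) x
  dv : ∀ j t x, t ∈ Icc t0 t1 → x ∈ Icc 0 xs →
    HasDerivWithinAt (v j t) (v (j + 1) t x) (Icc 0 xs) x
  dt : ∀ j t x, t ∈ Icc t0 t1 → x ∈ Icc 0 xs →
    HasDerivWithinAt (fun s => u j s x) (v j t x) (Icc t0 t1) t

/-- Right hand side of (W). -/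
def rhsW (e x w0 w1 w2 k0 : ℝ) : ℝ :=
  2 * e * (1 - x * k0) * x * (w2 - w1 ^ 2 / w0) + (1 + 2 * e * (1 - x * k0)) * w1 - 1

/-- Right hand side of (K). -/
def rhsK (e x w0 w1 k0 k1 k2 : ℝ) : ℝ :=
  2 * e * (1 - x * k0) * (x * k2 + 2 * k1) + e * (k0 + x * k1) ^ 2 + k1 + k0 ^ 2 +
    2 * e * (1 - x * k0) ^ 2 * w1 ^ 2 / w0 ^ 2

/-- A solution of (W), (K) on `[t0,t1] × [0,xs]`. -/
structure XSol (e t0 t1 xs : ℝ) (w wt k kt : ℕ → ℝ → ℝ → ℝ) : Prop where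
  jw : Jet t0 t1 xs w wt
  jk : Jet t0 t1 xs k kt
  pos : ∀ t x, t ∈ Icc t0 t1 → x ∈ Icc 0 xs → 0 < w 0 t x
  eqW : ∀ t x, t ∈ Icc t0 t1 → x ∈ Icc 0 xs →
    wt 0 t x = rhsW e x (w 0 t x) (w 1 t x) (w 2 t x) (k 0 t x)
  eqK : ∀ t x, t ∈ Icc t0 t1 → x ∈ Icc 0 xs →
    kt 0 t x = rhsK e x (w 0 t x) (w 1 t x) (k 0 t x) (k 1 t x) (k 2 t x)

/-- The first scale invariant regularity bounds on `[t0,t1] × [0,xs]`. -/
def Reg1 (C e t0 t1 xs : ℝ) (w k : ℕ → ℝ → ℝ → ℝ) : Prop :=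
  ∀ t x, t ∈ Icc t0 t1 → x ∈ Icc 0 xs →
    |w 1 t x| ≤ C ∧ |w 0 t x * w 2 t x| ≤ C ∧ |w 0 t x * k 0 t x| ≤ C * e ∧
      |w 0 t x ^ 2 * k 1 t x| ≤ C * e ∧ x ≤ 2 * w 0 t x

/-- `K(∂s, S²)`. -/
def kSF (e x w0 w1 w2 k0 k1 : ℝ) : ℝ :=
  -(2 * e * x * (1 - x * k0) * w2 + e * ((1 - x * k0) - x * (k0 + x * k1)) * w1) / (2 * w0) +
    2 * e * x * (1 - x * k0) * w1 ^ 2 / (4 * w0 ^ 2)

/-- Ricci curvature in the `S²` directions. -/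
def ricA (e x w0 w1 w2 k0 k1 : ℝ) : ℝ :=
  kSF e x w0 w1 w2 k0 k1 + (1 / (2 * w0) - 2 * e * x * (1 - x * k0) * w1 ^ 2 / (4 * w0 ^ 2)) -
    (1 + e) * (1 - x * k0) * w1 / (2 * w0)

/-- Ricci curvature in the `S^q` directions. -/
def ricB (e x w0 w1 k0 k1 : ℝ) : ℝ :=
  e * (k0 + x * k1) / 2 + k0 / 2 - e * (1 - x * k0) * w1 / w0

/-- Ricci curvature in the radial direction. -/
def ricC (e x w0 w1 w2 k0 k1 : ℝ) : ℝ :=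
  2 * kSF e x w0 w1 w2 k0 k1 + (1 + e) * (k0 + x * k1) / 2

/-- Scalar curvature (`q = 1 + 1/e`). -/
def scal (e x w0 w1 w2 k0 k1 : ℝ) : ℝ :=
  2 * ricA e x w0 w1 w2 k0 k1 + (1 + 1 / e) * ricB e x w0 w1 k0 k1 + ricC e x w0 w1 w2 k0 k1

theorem Jet.mono {t0 t1 xs s0 s1 : ℝ} {u v : ℕ → ℝ → ℝ → ℝ} (h : Jet t0 t1 xs u v)
    (h0 : t0 ≤ s0) (h1 : s1 ≤ t1) : Jet s0 s1 xs u v where
  cu j := (h.cu j).mono (prod_mono (Icc_subset_Icc h0 h1) subset_rfl)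
  cv j := (h.cv j).mono (prod_mono (Icc_subset_Icc h0 h1) subset_rfl)
  dx j t x ht hx := h.dx j t x (Icc_subset_Icc h0 h1 ht) hx
  dv j t x ht hx := h.dv j t x (Icc_subset_Icc h0 h1 ht) hx
  dt j t x ht hx := (h.dt j t x (Icc_subset_Icc h0 h1 ht) hx).mono (Icc_subset_Icc h0 h1)

theorem Jet.monoX {t0 t1 xs ys : ℝ} {u v : ℕ → ℝ → ℝ → ℝ} (h : Jet t0 t1 xs u v)
    (h1 : ys ≤ xs) : Jet t0 t1 ys u v where
  cu j := (h.cu j).mono (prod_mono subset_rfl (Icc_subset_Icc le_rfl h1))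
  cv j := (h.cv j).mono (prod_mono subset_rfl (Icc_subset_Icc le_rfl h1))
  dx j t x ht hx := (h.dx j t x ht (Icc_subset_Icc le_rfl h1 hx)).mono (Icc_subset_Icc le_rfl h1)
  dv j t x ht hx := (h.dv j t x ht (Icc_subset_Icc le_rfl h1 hx)).mono (Icc_subset_Icc le_rfl h1)
  dt j t x ht hx := h.dt j t x ht (Icc_subset_Icc le_rfl h1 hx)

theorem XSol.mono {e t0 t1 xs s0 s1 : ℝ} {w wt k kt : ℕ → ℝ → ℝ → ℝ}
    (h : XSol e t0 t1 xs w wt k kt) (h0 : t0 ≤ s0) (h1 : s1 ≤ t1) :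
    XSol e s0 s1 xs w wt k kt where
  jw := h.jw.mono h0 h1
  jk := h.jk.mono h0 h1
  pos t x ht hx := h.pos t x (Icc_subset_Icc h0 h1 ht) hx
  eqW t x ht hx := h.eqW t x (Icc_subset_Icc h0 h1 ht) hx
  eqK t x ht hx := h.eqK t x (Icc_subset_Icc h0 h1 ht) hx

theorem XSol.monoX {e t0 t1 xs ys : ℝ} {w wt k kt : ℕ → ℝ → ℝ → ℝ}
    (h : XSol e t0 t1 xs w wt k kt) (h1 : ys ≤ xs) : XSol e t0 t1 ys w wt k kt where
  jw := h.jw.monoX h1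
  jk := h.jk.monoX h1
  pos t x ht hx := h.pos t x ht (Icc_subset_Icc le_rfl h1 hx)
  eqW t x ht hx := h.eqW t x ht (Icc_subset_Icc le_rfl h1 hx)
  eqK t x ht hx := h.eqK t x ht (Icc_subset_Icc le_rfl h1 hx)

end

end Crest.Agent.N207.S
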