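import Crest.Agent.N207.S.In.Pk

/-!
Row 207 (S0320): evolution equations of the curvature quantities in the `x`-gauge.
-/

set_option autoImplicit false

open Set

namespace Crest.Agent.N207.S.In

noncomputable section

/-- `(1+4e)` times the trace free Ricci curvature in the `S²` directions. -/
def aH (e x w0 w1 w2 k0 k1 : ℝ) : ℝ :=
  (1 + 2 * e) * ricA e x w0 w1 w2 k0 k1 - (1 + e) * ricB e x w0 w1 k0 k1 -
    e * ricC e x w0 w1 w2 k0 k1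

/-- `(1+4e)` times the trace free Ricci curvature in the radial direction. -/
def cH (e x w0 w1 w2 k0 k1 : ℝ) : ℝ :=
  (1 + 3 * e) * ricC e x w0 w1 w2 k0 k1 - 2 * e * ricA e x w0 w1 w2 k0 k1 -
    (1 + e) * ricB e x w0 w1 k0 k1

/-- `e` times the scalar curvature. -/
def rE (e x w0 w1 w2 k0 k1 : ℝ) : ℝ :=
  2 * e * ricA e x w0 w1 w2 k0 k1 + (1 + e) * ricB e x w0 w1 k0 k1 +
    e * ricC e x w0 w1 w2 k0 k1

theorem rE_eq {e : ℝ} (he : e ≠ 0) (x w0 w1 w2 k0 k1 : ℝ) :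
    rE e x w0 w1 w2 k0 k1 = e * scal e x w0 w1 w2 k0 k1 := by
  unfold rE scal; field_simp; ring

def env (w k : ℕ → ℝ → ℝ → ℝ) (t x : ℝ) : ℕ → ℝ
  | 0 => x
  | 1 => (w 0 t x)⁻¹
  | 2 => w 1 t x
  | 3 => w 2 t x
  | 4 => k 0 t x
  | 5 => k 1 t x
  | _ => k 2 t x

def envT (w wt kt : ℕ → ℝ → ℝ → ℝ) (t x : ℝ) : ℕ → ℝ
  | 0 => 0
  | 1 => -((w 0 t x)⁻¹ ^ 2 * wt 0 t x)
  | 2 => wt 1 t x
  | 3 => wt 2 t x
  | 4 => kt 0 t x
  | 5 => kt 1 t x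
  | _ => kt 2 t x

def env1 (w k : ℕ → ℝ → ℝ → ℝ) (t x : ℝ) : ℕ → ℝ
  | 0 => 1
  | 1 => -((w 0 t x)⁻¹ ^ 2 * w 1 t x)
  | 2 => w 2 t x
  | 3 => w 3 t x
  | 4 => k 1 t x
  | 5 => k 2 t x
  | _ => k 3 t x

def env2 (w k : ℕ → ℝ → ℝ → ℝ) (t x : ℝ) : ℕ → ℝ
  | 0 => 0
  | 1 => 2 * (w 0 t x)⁻¹ ^ 3 * w 1 t x ^ 2 - (w 0 t x)⁻¹ ^ 2 * w 2 t x
  | 2 => w 3 t x
  | 3 => w 4 t x
  | 4 => k 2 t x
  | 5 => k 3 t x
  | _ => k 4 t x

variable {e t0 t1 xs : ℝ} {w wt k kt : ℕ → ℝ → ℝ → ℝ}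

theorem pk_id : Pk t0 t1 xs (fun _ x => x) (fun _ _ => 0) (fun _ _ => 1) (fun _ _ => 0) where
  cont := continuousOn_snd
  dt _ _ _ _ := hasDerivWithinAt_const _ _ _
  dx _ _ _ _ := hasDerivWithinAt_id _ _
  dxx _ _ _ _ := hasDerivWithinAt_const _ _ _

theorem pk_inv (h : XSol e t0 t1 xs w wt k kt) :
    Pk t0 t1 xs (fun t x => (w 0 t x)⁻¹) (fun t x => -((w 0 t x)⁻¹ ^ 2 * wt 0 t x))
      (fun t x => -((w 0 t x)⁻¹ ^ 2 * w 1 t x))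
      (fun t x => 2 * (w 0 t x)⁻¹ ^ 3 * w 1 t x ^ 2 - (w 0 t x)⁻¹ ^ 2 * w 2 t x) := by
  have hdx : ∀ t x, t ∈ Icc t0 t1 → x ∈ Icc 0 xs → HasDerivWithinAt (fun y => (w 0 t y)⁻¹)
      (-((w 0 t x)⁻¹ ^ 2 * w 1 t x)) (Icc 0 xs) x := by
    intro t x ht hx
    refine HasDerivWithinAt.congr_deriv ((h.jw.dx 0 t x ht hx).inv (h.pos t x ht hx).ne') ?_
    have := (h.pos t x ht hx).ne'
    field_simp
  refine ⟨(h.jw.cu 0).inv₀ fun p hp => (h.pos p.1 p.2 hp.1 hp.2).ne', fun t x ht hx => ?_, hdx,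
    fun t x ht hx => ?_⟩
  · refine HasDerivWithinAt.congr_deriv ((h.jw.dt 0 t x ht hx).inv (h.pos t x ht hx).ne') ?_
    have := (h.pos t x ht hx).ne'
    field_simp
  · refine HasDerivWithinAt.congr_deriv
      ((((hdx t x ht hx).pow 2).mul (h.jw.dx 1 t x ht hx)).neg) ?_
    simp only [Pi.pow_apply]
    norm_num
    ring

theorem pk_env (h : XSol e t0 t1 xs w wt k kt) (i : ℕ) :
    Pk t0 t1 xs (fun t x => env w k t x i) (fun t x => envT w wt kt t x i)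
      (fun t x => env1 w k t x i) (fun t x => env2 w k t x i) := by
  match i with
  | 0 => exact pk_id
  | 1 => exact pk_inv h
  | 2 => exact h.jw.pk 1
  | 3 => exact h.jw.pk 2
  | 4 => exact h.jk.pk 0
  | 5 => exact h.jk.pk 1
  | (n + 6) => exact h.jk.pk 2

def xZ : Ex := .c 1 - .v 0 * .v 4
def xW (e : ℝ) : Ex :=
  .c (2 * e) * xZ * .v 0 * (.v 3 - .v 2 * .v 2 * .v 1) + (.c 1 + .c (2 * e) * xZ) * .v 2 - .c 1
def xK (e : ℝ) : Ex :=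
  .c (2 * e) * xZ * (.v 0 * .v 6 + .c 2 * .v 5) + .c e * ((.v 4 + .v 0 * .v 5) *
    (.v 4 + .v 0 * .v 5)) + .v 5 + .v 4 * .v 4 + .c (2 * e) * (xZ * xZ) * (.v 2 * .v 2) *
      (.v 1 * .v 1)
def xU (e : ℝ) : Ex := .c (e / 2) * .v 0 * xZ * (.v 2 * .v 2) * (.v 1 * .v 1)
def xS (e : ℝ) : Ex :=
  xU e - (.c e * .v 0 * xZ * .v 3 + .c (e / 2) * (xZ - .v 0 * (.v 4 + .v 0 * .v 5)) * .v 2) * .v 1
def xA (e : ℝ) : Ex :=
  xS e + (.c (1 / 2) * .v 1 - xU e) - .c ((1 + e) / 2) * xZ * .v 2 * .v 1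
def xB (e : ℝ) : Ex :=
  .c (e / 2) * (.v 4 + .v 0 * .v 5) + .c (1 / 2) * .v 4 - .c e * xZ * .v 2 * .v 1
def xC (e : ℝ) : Ex := .c 2 * xS e + .c ((1 + e) / 2) * (.v 4 + .v 0 * .v 5)

theorem wt0 (h : XSol e t0 t1 xs w wt k kt) {t x : ℝ} (ht : t ∈ Icc t0 t1) (hx : x ∈ Icc 0 xs) :
    wt 0 t x = ev (env w k t x) (xW e) := by
  rw [h.eqW t x ht hx]
  simp only [rhsW, xW, xZ, ev_add, ev_sub, ev_mul, ev_v, ev_c, env]
  ring

theorem kt0 (h : XSol e t0 t1 xs w wt k kt) {t x : ℝ} (ht : t ∈ Icc t0 t1) (hx : x ∈ Icc 0 xs) :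
    kt 0 t x = ev (env w k t x) (xK e) := by
  rw [h.eqK t x ht hx]
  simp only [rhsK, xK, xZ, ev_add, ev_sub, ev_mul, ev_v, ev_c, env]
  ring

theorem wt1 (h : XSol e t0 t1 xs w wt k kt) (hxs : 0 < xs) {t x : ℝ} (ht : t ∈ Icc t0 t1)
    (hx : x ∈ Icc 0 xs) : wt 1 t x = ev1 (env w k t x) (env1 w k t x) (xW e) := by
  have h1 := (Pk.ev (pk_env h) (xW e)).dx t x ht hx
  have h2 := (h.jw.dv 0 t x ht hx).congr (fun y hy => (wt0 h ht hy).symm) (wt0 h ht hx).symm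
  exact (uniqueDiffOn_Icc hxs x hx).eq_deriv _ h2 h1

theorem kt1 (h : XSol e t0 t1 xs w wt k kt) (hxs : 0 < xs) {t x : ℝ} (ht : t ∈ Icc t0 t1)
    (hx : x ∈ Icc 0 xs) : kt 1 t x = ev1 (env w k t x) (env1 w k t x) (xK e) := by
  have h1 := (Pk.ev (pk_env h) (xK e)).dx t x ht hx
  have h2 := (h.jk.dv 0 t x ht hx).congr (fun y hy => (kt0 h ht hy).symm) (kt0 h ht hx).symm
  exact (uniqueDiffOn_Icc hxs x hx).eq_deriv _ h2 h1

theorem wt2 (h : XSol e t0 t1 xs w wt k kt) (hxs : 0 < xs) {t x : ℝ} (ht : t ∈ Icc t0 t1)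
    (hx : x ∈ Icc 0 xs) :
    wt 2 t x = ev2 (env w k t x) (env1 w k t x) (env2 w k t x) (xW e) := by
  have h1 := (Pk.ev (pk_env h) (xW e)).dxx t x ht hx
  have h2 := (h.jw.dv 1 t x ht hx).congr (fun y hy => (wt1 h hxs ht hy).symm)
    (wt1 h hxs ht hx).symm
  exact (uniqueDiffOn_Icc hxs x hx).eq_deriv _ h2 h1

/-- `∂_t - Z ∂_xx - β ∂_x` applied to a polynomial in the jets. -/
def box (e : ℝ) (w wt k kt : ℕ → ℝ → ℝ → ℝ) (p : Ex) (t x : ℝ) : ℝ :=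
  ev1 (env w k t x) (envT w wt kt t x) p -
    2 * e * x * (1 - x * k 0 t x) * ev2 (env w k t x) (env1 w k t x) (env2 w k t x) p -
    (1 + 2 * e * (1 - x * k 0 t x)) * ev1 (env w k t x) (env1 w k t x) p

def xAH (e : ℝ) : Ex := .c (1 + 2 * e) * xA e - .c (1 + e) * xB e - .c e * xC e
def xCH (e : ℝ) : Ex := .c (1 + 3 * e) * xC e - .c (2 * e) * xA e - .c (1 + e) * xB e
def xRE (e : ℝ) : Ex := .c (2 * e) * xA e + .c (1 + e) * xB e + .c e * xC e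

theorem ev_xS (t x : ℝ) : ev (env w k t x) (xS e) =
    kSF e x (w 0 t x) (w 1 t x) (w 2 t x) (k 0 t x) (k 1 t x) := by
  simp only [kSF, xS, xU, xZ, ev_add, ev_sub, ev_mul, ev_v, ev_c, env]; ring

theorem ev_xA (t x : ℝ) : ev (env w k t x) (xA e) =
    ricA e x (w 0 t x) (w 1 t x) (w 2 t x) (k 0 t x) (k 1 t x) := by
  simp only [ricA, xA, ev_xS, xU, xZ, ev_add, ev_sub, ev_mul, ev_v, ev_c, env]; ring

theorem ev_xB (t x : ℝ) : ev (env w k t x) (xB e) =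
    ricB e x (w 0 t x) (w 1 t x) (k 0 t x) (k 1 t x) := by
  simp only [ricB, xB, xZ, ev_add, ev_sub, ev_mul, ev_v, ev_c, env]; ring

theorem ev_xC (t x : ℝ) : ev (env w k t x) (xC e) =
    ricC e x (w 0 t x) (w 1 t x) (w 2 t x) (k 0 t x) (k 1 t x) := by
  simp only [ricC, xC, ev_xS, ev_add, ev_mul, ev_v, ev_c, env]; ring

theorem ev_xAH (t x : ℝ) : ev (env w k t x) (xAH e) =
    aH e x (w 0 t x) (w 1 t x) (w 2 t x) (k 0 t x) (k 1 t x) := by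
  simp only [aH, xAH, ev_xA, ev_xB, ev_xC, ev_sub, ev_mul, ev_c]

theorem ev_xCH (t x : ℝ) : ev (env w k t x) (xCH e) =
    cH e x (w 0 t x) (w 1 t x) (w 2 t x) (k 0 t x) (k 1 t x) := by
  simp only [cH, xCH, ev_xA, ev_xB, ev_xC, ev_sub, ev_mul, ev_c]

theorem ev_xRE (t x : ℝ) : ev (env w k t x) (xRE e) =
    rE e x (w 0 t x) (w 1 t x) (w 2 t x) (k 0 t x) (k 1 t x) := by
  simp only [rE, xRE, ev_xA, ev_xB, ev_xC, ev_add, ev_mul, ev_c]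

theorem box_rE (h : XSol e t0 t1 xs w wt k kt) (hxs : 0 < xs) {t x : ℝ} (ht : t ∈ Icc t0 t1)
    (hx : x ∈ Icc 0 xs) : box e w wt k kt (xRE e) t x =
      2 * (2 * e * ev (env w k t x) (xA e) ^ 2 + (1 + e) * ev (env w k t x) (xB e) ^ 2 +
        e * ev (env w k t x) (xC e) ^ 2) := by
  have a0 := wt0 h ht hx
  have a1 := wt1 h hxs ht hx
  have a2 := wt2 h hxs ht hx
  have b0 := kt0 h ht hx
  have b1 := kt1 h hxs ht hx
  simp only [xW, xK, xZ, ev_add, ev_sub, ev_mul, ev_v, ev_c, ev1_add, ev1_sub, ev1_mul, ev1_v,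
    ev1_c, ev2_add, ev2_sub, ev2_mul, ev2_v, ev2_c, env, env1, env2] at a0 a1 a2 b0 b1
  simp only [box, xRE, xA, xB, xC, xS, xU, xZ, ev_add, ev_sub, ev_mul, ev_v, ev_c, ev1_add,
    ev1_sub, ev1_mul, ev1_v, ev1_c, ev2_add, ev2_sub, ev2_mul, ev2_v, ev2_c, env, env1, env2, envT]
  rw [a0, a1, a2, b0, b1]
  ring

/-- The quadratic term. -/
def qq (e a c : ℝ) : ℝ := (1 + e) * (2 * a ^ 2 + c ^ 2) + e * (2 * a + c) ^ 2

theorem box_aH (h : XSol e t0 t1 xs w wt k kt) (hxs : 0 < xs) {t x : ℝ} (ht : t ∈ Icc t0 t1)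
    (hx : x ∈ Icc 0 xs) : (1 + e) * (1 + 4 * e) ^ 2 * box e w wt k kt (xAH e) t x =
      (1 + e) * (1 + 4 * e) ^ 2 * (((w 0 t x)⁻¹ - 4 * ev (env w k t x) (xU e) +
        2 * e * (1 - x * k 0 t x) * w 1 t x * (w 0 t x)⁻¹) * ev (env w k t x) (xAH e) +
        (2 * ev (env w k t x) (xU e) + e * (1 - x * k 0 t x) * w 1 t x * (w 0 t x)⁻¹ +
          2 * ev (env w k t x) (xS e)) * ev (env w k t x) (xCH e)) +
      2 * (1 + e) * (1 + 4 * e) * ev (env w k t x) (xRE e) * ev (env w k t x) (xAH e) -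
      2 * e * qq e (ev (env w k t x) (xAH e)) (ev (env w k t x) (xCH e)) := by
  have a0 := wt0 h ht hx
  have a1 := wt1 h hxs ht hx
  have a2 := wt2 h hxs ht hx
  have b0 := kt0 h ht hx
  have b1 := kt1 h hxs ht hx
  simp only [xW, xK, xZ, ev_add, ev_sub, ev_mul, ev_v, ev_c, ev1_add, ev1_sub, ev1_mul, ev1_v,
    ev1_c, ev2_add, ev2_sub, ev2_mul, ev2_v, ev2_c, env, env1, env2] at a0 a1 a2 b0 b1
  simp only [box, qq, xAH, xCH, xRE, xA, xB, xC, xS, xU, xZ, ev_add, ev_sub, ev_mul, ev_v, ev_c,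
    ev1_add, ev1_sub, ev1_mul, ev1_v, ev1_c, ev2_add, ev2_sub, ev2_mul, ev2_v, ev2_c, env, env1,
    env2, envT]
  rw [a0, a1, a2, b0, b1]
  ring

theorem box_cH (h : XSol e t0 t1 xs w wt k kt) (hxs : 0 < xs) {t x : ℝ} (ht : t ∈ Icc t0 t1)
    (hx : x ∈ Icc 0 xs) : (1 + e) * (1 + 4 * e) ^ 2 * (x * box e w wt k kt (xCH e) t x) =
      (1 + e) * (1 + 4 * e) ^ 2 * ((x * (-4 * ev (env w k t x) (xU e) -
        e * (k 0 t x + x * k 1 t x)) - (1 + 2 * e) * (1 - x * k 0 t x)) * ev (env w k t x) (xCH e) +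
        (4 * x * (ev (env w k t x) (xU e) + ev (env w k t x) (xS e) -
          e * (k 0 t x + x * k 1 t x) / 2) - 2 * e * (1 - x * k 0 t x)) *
          ev (env w k t x) (xAH e)) +
      x * (2 * (1 + e) * (1 + 4 * e) * ev (env w k t x) (xRE e) * ev (env w k t x) (xCH e) -
      2 * e * qq e (ev (env w k t x) (xAH e)) (ev (env w k t x) (xCH e))) := by
  have a0 := wt0 h ht hx
  have a1 := wt1 h hxs ht hx
  have a2 := wt2 h hxs ht hx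
  have b0 := kt0 h ht hx
  have b1 := kt1 h hxs ht hx
  simp only [xW, xK, xZ, ev_add, ev_sub, ev_mul, ev_v, ev_c, ev1_add, ev1_sub, ev1_mul, ev1_v,
    ev1_c, ev2_add, ev2_sub, ev2_mul, ev2_v, ev2_c, env, env1, env2] at a0 a1 a2 b0 b1
  simp only [box, qq, xAH, xCH, xRE, xA, xB, xC, xS, xU, xZ, ev_add, ev_sub, ev_mul, ev_v, ev_c,
    ev1_add, ev1_sub, ev1_mul, ev1_v, ev1_c, ev2_add, ev2_sub, ev2_mul, ev2_v, ev2_c, env, env1,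
    env2, envT]
  rw [a0, a1, a2, b0, b1]
  ring

end

end Crest.Agent.N207.S.In
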