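import Crest.Agent.N207.S.Out.Defs

/-!
Row 207 (S0320), block POST: statement (bounded scalar curvature on the `x`-chart).
-/

set_option autoImplicit false

open Set

namespace Crest.Agent.N207.S.In

/-- **Block POST**: the scalar curvature stays bounded on `[t0,T) × [0,X]`. -/
def PostStmt : Prop :=
  ∀ C0 : ℝ, ∃ e0 : ℝ, 0 < e0 ∧ ∀ (e t0 T X c : ℝ) (w wt k kt : ℕ → ℝ → ℝ → ℝ),
    0 < e → e ≤ e0 → t0 < T → (T - t0) / 200 < X → X ≤ 1 / 10 → 0 < c →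
    (∀ t ∈ Ico t0 T, XSol e t0 t X w wt k kt ∧ Reg1 C0 e t0 t X w k ∧ Out.Out T X w t) →
    (∀ t ∈ Ico t0 T, ∀ x ∈ Icc 0 ((T - t) / 200),
      x ≤ w 0 t x ∧ c * (T - t) ^ 3 ≤ w 0 t x ∧ |w 1 t x| ≤ 2) →
    ∃ C : ℝ, ∀ t ∈ Ico t0 T, ∀ x ∈ Icc 0 X,
      |scal e x (w 0 t x) (w 1 t x) (w 2 t x) (k 0 t x) (k 1 t x)| ≤ C

end Crest.Agent.N207.S.In
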