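import Crest.Agent.N207.S.In.Bar
import Crest.Agent.N207.S.In.PostDefs

/-!
Row 207 (S0320): the bounds for the trace free Ricci curvature.
-/

set_option autoImplicit false

open Set

namespace Crest.Agent.N207.S.In

noncomputable section

theorem abs_mul_le {a b A B : ℝ} (ha : |a| ≤ A) (hb : |b| ≤ B) : |a * b| ≤ A * B := by
  rw [abs_mul]; exact mul_le_mul ha hb (abs_nonneg _) ((abs_nonneg _).trans ha)

theorem outer_a {η C e x w0 w1 w2 k0 k1 BA BC BR q : ℝ}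
    (hG : Good η C e x w0 w1 w2 k0 k1 BA BC BR) (hη : η ≤ 1 / 1000) (he : 0 ≤ e) (hw : 0 < w0)
    (hx0 : 0 ≤ x) (hx : x ≤ 2 * w0) (hq : 0 ≤ q) (h0 : |w0 - x| ≤ x ^ 2 * q)
    (h1 : |w1 - 1| ≤ x * q) (h2 : |w2| ≤ q) :
    |aH e x w0 w1 w2 k0 k1| ≤ 2 * q + 2 * η * |cH e x w0 w1 w2 k0 k1| := by
  have hw' := hw.ne'
  have key : (2 * (1 + e) + 4 * (e * (x * w1 / w0))) * aH e x w0 w1 w2 k0 k1 =
      -((1 + e) * (1 + 4 * e) * (2 * e * (1 - x * k0) * (x / w0) * w2 +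
        (1 + 2 * e * (1 - x * k0)) * ((w1 - 1) / w0) +
        2 * e * (1 - x * k0) * ((w0 - x) / w0 ^ 2) -
        2 * (1 - x * k0) * ((w1 - 1) / w0) * (e * (x / w0) + e * (x * w1 / w0)))) -
      2 * (1 + e) * ((w0 * rE e x w0 w1 w2 k0 k1) *
        ((w0 - x) / w0 ^ 2 - x / w0 * ((w1 - 1) / w0))) -
      2 * (e * (x * w1 / w0)) * cH e x w0 w1 w2 k0 k1 := by
    simp only [aH, cH, rE, ricA, ricB, ricC, kSF]
    field_simp
    ring
  have hξ : |x / w0| ≤ 2 := by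
    rw [abs_of_nonneg (by positivity), div_le_iff₀ hw]; exact hx
  have hδ : |(w1 - 1) / w0| ≤ 2 * q := by
    rw [abs_div, abs_of_pos hw, div_le_iff₀ hw]; nlinarith
  have hα : |(w0 - x) / w0 ^ 2| ≤ 4 * q := by
    rw [abs_div, abs_of_pos (by positivity : 0 < w0 ^ 2), div_le_iff₀ (by positivity)]
    have : x ^ 2 ≤ 4 * w0 ^ 2 := by nlinarith
    nlinarith
  have hπ : |e * (x * w1 / w0)| ≤ η := by
    rw [abs_mul, abs_of_nonneg he, abs_div, abs_of_pos hw, ← mul_div_assoc, div_le_iff₀ hw]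
    exact hG.hP
  have hR : |w0 * rE e x w0 w1 w2 k0 k1| ≤ 1 / 1000 := by
    rw [abs_mul, abs_of_pos hw]; exact hG.bR.trans hη
  have hk := abs_le.1 hG.hk
  have he1 : e ≤ 1 / 1000 := hG.he.trans hη
  have hz : |1 - x * k0| ≤ 11 / 10 := abs_le.2 ⟨by linarith, by linarith⟩
  have he2 : |2 * e| ≤ 1 / 500 := by rw [abs_of_nonneg (by positivity)]; linarith
  generalize aH e x w0 w1 w2 k0 k1 = A at *
  generalize cH e x w0 w1 w2 k0 k1 = Cc at *
  generalize w0 * rE e x w0 w1 w2 k0 k1 = R at *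
  generalize e * (x * w1 / w0) = π at *
  generalize (w0 - x) / w0 ^ 2 = α at *
  generalize (w1 - 1) / w0 = δ at *
  generalize x / w0 = ξ at *
  generalize 1 - x * k0 = z at *
  have t0 := abs_mul_le he2 hz
  have t1 := abs_mul_le (abs_mul_le t0 hξ) h2
  have t2 := abs_mul_le (abs_le.2 ⟨by linarith [(abs_le.1 t0).1], by linarith [(abs_le.1 t0).2]⟩ :
    |1 + 2 * e * z| ≤ 101 / 100) hδ
  have t3 := abs_mul_le t0 hα
  have t4 : |e * ξ + π| ≤ 1 / 100 := by
    have := abs_le.1 (abs_mul_le (show |e| ≤ 1 / 1000 by rwa [abs_of_nonneg he]) hξ)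
    have := abs_le.1 hπ
    exact abs_le.2 ⟨by linarith, by linarith⟩
  have t5 := abs_mul_le (abs_mul_le (abs_mul_le (show |(2 : ℝ)| ≤ 2 by norm_num) hz) hδ) t4
  have t6 : |2 * e * z * ξ * w2 + (1 + 2 * e * z) * δ + 2 * e * z * α - 2 * z * δ * (e * ξ + π)| ≤
      3 * q := by
    have := abs_le.1 t1
    have := abs_le.1 t2
    have := abs_le.1 t3
    have := abs_le.1 t5
    exact abs_le.2 ⟨by linarith, by linarith⟩
  have t7 := abs_mul_le (show |(1 + e) * (1 + 4 * e)| ≤ 11 / 10 by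
    rw [abs_of_nonneg (by positivity)]; nlinarith) t6
  have t8 : |α - ξ * δ| ≤ 8 * q := by
    have := abs_le.1 (abs_mul_le hξ hδ)
    have := abs_le.1 hα
    exact abs_le.2 ⟨by linarith, by linarith⟩
  have t9 := abs_mul_le (show |2 * (1 + e)| ≤ 3 by
    rw [abs_of_nonneg (by positivity)]; linarith) (abs_mul_le hR t8)
  have t10 := abs_mul_le (abs_mul_le (show |(2 : ℝ)| ≤ 2 by norm_num) hπ) (le_refl |Cc|)
  have t11 : |(2 * (1 + e) + 4 * π) * A| ≤ 35 / 10 * q + 2 * η * |Cc| := by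
    rw [key]
    have := abs_le.1 t7
    have := abs_le.1 t9
    have := abs_le.1 t10
    exact abs_le.2 ⟨by linarith, by linarith⟩
  have t12 : 19 / 10 ≤ 2 * (1 + e) + 4 * π := by linarith [(abs_le.1 hπ).1]
  rw [abs_mul, abs_of_pos (by linarith : 0 < 2 * (1 + e) + 4 * π)] at t11
  have t13 := mul_le_mul_of_nonneg_right t12 (abs_nonneg A)
  have t14 : 0 ≤ 2 * η * |Cc| := mul_nonneg (by linarith [abs_nonneg π]) (abs_nonneg _)
  linarith

variable {e t0 t1 T X η C m : ℝ} {w wt k kt : ℕ → ℝ → ℝ → ℝ}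

/-- The data of the comparison arguments on `[t0,t1] × [0,X]`. -/
structure Su (e t0 t1 T X η C m : ℝ) (w wt k kt : ℕ → ℝ → ℝ → ℝ) : Prop where
  sol : XSol e t0 t1 X w wt k kt
  he : 0 ≤ e
  hη : η ≤ 1 / 1000
  hT : t1 < T
  hX : (T - t0) / 200 < X
  m0 : 0 < m
  good : ∀ t x, t ∈ Icc t0 t1 → x ∈ Icc 0 X →
    Good η C e x (w 0 t x) (w 1 t x) (w 2 t x) (k 0 t x) (k 1 t x)
      (box e w wt k kt (xAH e) t x) (box e w wt k kt (xCH e) t x) (box e w wt k kt (xRE e) t x)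
  w1 : ∀ t x, t ∈ Icc t0 t1 → x ∈ Icc 0 X → w 0 t x ≤ 1 ∧ 9 * x ≤ 10 * w 0 t x
  inn : ∀ t x, t ∈ Icc t0 t1 → x ∈ Icc 0 ((T - t) / 200) → 60 * w 0 t x ≤ T - t
  out : ∀ t x, t ∈ Icc t0 t1 → x ∈ Icc ((T - t) / 200) X →
    |ev (env w k t x) (xAH e)| ≤ 4 * w 0 t x ^ (3 / 4 : ℝ) + 2 * η * |ev (env w k t x) (xCH e)|
  low0 : ∀ x ∈ Icc 0 X, m ≤ w 0 t0 x
  lowX : ∀ t ∈ Icc t0 t1, m ≤ w 0 t X

theorem abs_sg (b : Bool) : |(if b then 1 else -1 : ℝ)| = 1 := by cases b <;> simp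

theorem abs_le_of_sg {a B : ℝ} (h : ∀ b : Bool, (if b then 1 else -1 : ℝ) * a - B ≤ 0) :
    |a| ≤ B := by
  have h1 := h true
  have h2 := h false
  simp only [if_true, Bool.false_eq_true, if_false] at h1 h2
  exact abs_le.2 ⟨by linarith, by linarith⟩

theorem small_lt {w m C K a : ℝ} (hm : 0 < m) (hw : m ≤ w) (hw1 : w ≤ 1) (ha : w * |a| ≤ C)
    (hK : C < K * m ^ 2) (hK0 : 0 < K) : |a| < K * w ^ (3 / 4 : ℝ) := by
  have hw0 : 0 < w := hm.trans_le hw
  have h1 : w ≤ w ^ (3 / 4 : ℝ) := by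
    simpa using Real.rpow_le_rpow_of_exponent_ge hw0 hw1 (by norm_num : (3 / 4 : ℝ) ≤ 1)
  have h2 : K * m ^ 2 ≤ w * (K * w) := by
    have := pow_le_pow_left₀ hm.le hw 2
    nlinarith
  have h3 : |a| < K * w := lt_of_mul_lt_mul_left (by linarith) hw0.le
  exact h3.trans_le (mul_le_mul_of_nonneg_left h1 hK0.le)

theorem S2_le_B' {w τ : ℝ} (hw : 0 < w) (h : w ≤ τ) :
    w ^ (3 / 4 : ℝ) ≤ τ ^ (15 / 8 : ℝ) * w ^ (-(9 / 8) : ℝ) := by
  obtain ⟨u, hu, e1, e2, e3, -⟩ := rt8' hw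
  obtain ⟨s, hs, f1, -, -, -, -, f2, -⟩ := rt8' (hw.trans_le h)
  rw [e2, e3, f2]
  exact S2_le_B hu (by rw [← e1, ← f1]; exact h) hs

theorem cont_min {f : ℝ → ℝ → ℝ}
    (hf : ContinuousOn (fun p : ℝ × ℝ => f p.1 p.2) (Icc t0 t1 ×ˢ Icc 0 X)) (hT : t1 < T) :
    ContinuousOn (fun p : ℝ × ℝ => f p.1 (min p.2 ((T - p.1) / 200))) (Icc t0 t1 ×ˢ Icc 0 X) := by
  have hm : Continuous fun p : ℝ × ℝ => (p.1, min p.2 ((T - p.1) / 200)) := by fun_prop
  refine hf.comp hm.continuousOn fun p hp => ⟨hp.1, le_min hp.2.1 ?_, ?_⟩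
  · linarith [hp.1.2]
  · exact (min_le_left _ _).trans hp.2.2

set_option maxHeartbeats 1000000 in
theorem ac_bound (h : Su e t0 t1 T X η C m w wt k kt) {K : ℝ} (hK : 8 ≤ K)
    (hKC : C < K * m ^ 2) {t x : ℝ} (ht : t ∈ Icc t0 t1) (hx : x ∈ Icc 0 X) :
    |ev (env w k t x) (xAH e)| ≤ 2 * (K * ((T - t) ^ (15 / 8 : ℝ) * w 0 t x ^ (-(9 / 8) : ℝ))) +
        K * w 0 t x ^ (3 / 4 : ℝ) ∧
      |ev (env w k t x) (xCH e)| ≤ K * ((T - t) ^ (15 / 8 : ℝ) * w 0 t x ^ (-(9 / 8) : ℝ)) +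
        K * w 0 t x ^ (3 / 4 : ℝ) := by
  have hK0 : 0 < K := by linarith
  have hη := h.hη
  have hG0 : ∀ t ∈ Icc t0 t1, HasDerivAt (fun _ : ℝ => (0 : ℝ)) ((fun _ => 0) t) t :=
    fun t _ => hasDerivAt_const _ _
  have hτ : ∀ s ∈ Icc t0 t1, 0 < (T - s) / 200 ∧ (T - s) / 200 < X := fun s hs =>
    ⟨by linarith [hs.2, h.hT], by linarith [hs.1, h.hX]⟩
  let F : Bool × Bool → ℝ → ℝ → ℝ := fun i s y =>
    if i.1 then (if i.2 then 1 else -1 : ℝ) * ev (env w k s (min y ((T - s) / 200))) (xAH e) -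
      bar T K (15 / 8) (-(9 / 8)) 0 0 (fun _ => 0) (w 0) s (min y ((T - s) / 200))
    else (if i.2 then 1 else -1 : ℝ) * ev (env w k s y) (xCH e) -
      bar T (K / 100) (15 / 8) (-(9 / 8)) K (3 / 4) (fun _ => 0) (w 0) s y
  -- consequences of the barrier inequalities on a time slice
  have hcons : ∀ s ∈ Icc t0 t1, (∀ i y, 0 ≤ y → y ≤ X → F i s y ≤ 0) → ∀ y ∈ Icc 0 X,
      |ev (env w k s y) (xAH e)| ≤
        2 * (K * ((T - s) ^ (15 / 8 : ℝ) * w 0 s y ^ (-(9 / 8) : ℝ))) +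
          K * w 0 s y ^ (3 / 4 : ℝ) ∧
      |ev (env w k s y) (xCH e)| ≤ K / 100 * ((T - s) ^ (15 / 8 : ℝ) * w 0 s y ^ (-(9 / 8) : ℝ)) +
        K * w 0 s y ^ (3 / 4 : ℝ) := by
    intro s hs hF y hy
    have hw := h.sol.pos s y hs hy
    have hτs : 0 < T - s := by linarith [(hτ s hs).1]
    have p1 : 0 < (T - s) ^ (15 / 8 : ℝ) * w 0 s y ^ (-(9 / 8) : ℝ) := by positivity
    have p2 : 0 < w 0 s y ^ (3 / 4 : ℝ) := by positivity
    have hc : |ev (env w k s y) (xCH e)| ≤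
        K / 100 * ((T - s) ^ (15 / 8 : ℝ) * w 0 s y ^ (-(9 / 8) : ℝ)) +
          K * w 0 s y ^ (3 / 4 : ℝ) := by
      refine abs_le_of_sg fun b => ?_
      simpa [F, bar] using hF (false, b) y hy.1 hy.2
    refine ⟨?_, hc⟩
    rcases le_total y ((T - s) / 200) with hy1 | hy1
    · have : |ev (env w k s y) (xAH e)| ≤
          K * ((T - s) ^ (15 / 8 : ℝ) * w 0 s y ^ (-(9 / 8) : ℝ)) := by
        refine abs_le_of_sg fun b => ?_
        simpa [F, bar, min_eq_left hy1] using hF (true, b) y hy.1 hy.2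
      nlinarith
    · have h1 := h.out s y hs ⟨hy1, hy.2⟩
      have h2 : 2 * η * |ev (env w k s y) (xCH e)| ≤ 1 / 2 * |ev (env w k s y) (xCH e)| :=
        mul_le_mul_of_nonneg_right (by linarith) (abs_nonneg _)
      nlinarith
  have main := MP.neg_of_no_touch (l := fun _ => 0) (r := fun _ => X) (t0 := t0) (t1 := t1)
    continuousOn_const continuousOn_const F ?_ ?_ ?_ (fun s a b => by
      linarith [hτ s ⟨a, b⟩])
  · have := hcons t ht (fun i y a b => (main i t y ht.1 ht.2 a b).le) x hx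
    refine ⟨this.1, this.2.trans ?_⟩
    have hw := h.sol.pos t x ht hx
    have hτs : 0 < T - t := by linarith [(hτ t ht).1]
    have p1 : 0 < (T - t) ^ (15 / 8 : ℝ) * w 0 t x ^ (-(9 / 8) : ℝ) := by positivity
    nlinarith
  · rintro ⟨b1, b2⟩
    have hsub : MP.Reg (fun _ => 0) (fun _ => X) t0 t1 ⊆ Icc t0 t1 ×ˢ Icc 0 X :=
      fun p hp => ⟨⟨hp.1, hp.2.1⟩, hp.2.2⟩
    cases b1
    · exact (((Pk.ev (pk_env h.sol) (xCH e)).cmul _).cont.sub
        (continuousOn_bar h.sol h.hT _ _ _ _ _ hG0)).mono hsub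
    · have hc := ((Pk.ev (pk_env h.sol) (xAH e)).cmul (if b2 then 1 else -1 : ℝ)).cont.sub
        (continuousOn_bar h.sol h.hT K (15 / 8) (-(9 / 8)) 0 0 hG0)
      exact (cont_min (f := fun s y => (if b2 then 1 else -1 : ℝ) * ev (env w k s y) (xAH e) -
        bar T K (15 / 8) (-(9 / 8)) 0 0 (fun _ => 0) (w 0) s y) hc h.hT).mono hsub
  · rintro ⟨b1, b2⟩ y hy0 hy1
    have h01 : t0 ∈ Icc t0 t1 := ⟨le_rfl, ht.1.trans ht.2⟩
    have hτs : 0 < T - t0 := by linarith [(hτ t0 h01).1]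
    cases b1
    · have hy : y ∈ Icc 0 X := ⟨hy0, hy1⟩
      have hw := h.sol.pos t0 y h01 hy
      have h1 := small_lt h.m0 (h.low0 y hy) (h.w1 t0 y h01 hy).1 (h.good t0 y h01 hy).bC hKC hK0
      rw [← ev_xCH] at h1
      have p1 : 0 < K / 100 * ((T - t0) ^ (15 / 8 : ℝ) * w 0 t0 y ^ (-(9 / 8) : ℝ)) := by
        positivity
      have h2 := le_abs_self ((if b2 then 1 else -1 : ℝ) * ev (env w k t0 y) (xCH e))
      rw [abs_mul, abs_sg, one_mul] at h2
      simp only [F, bar, Bool.false_eq_true, if_false]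
      linarith
    · have hy' : min y ((T - t0) / 200) ∈ Icc 0 ((T - t0) / 200) :=
        ⟨le_min hy0 (hτ _ h01).1.le, min_le_right _ _⟩
      have hy : min y ((T - t0) / 200) ∈ Icc 0 X := ⟨hy'.1, (min_le_left _ _).trans hy1⟩
      simp only [F, bar, if_true]
      generalize min y ((T - t0) / 200) = y' at *
      have hw := h.sol.pos t0 y' h01 hy
      have h1 := small_lt h.m0 (h.low0 y' hy) (h.w1 t0 y' h01 hy).1 (h.good t0 y' h01 hy).bA
        hKC hK0
      rw [← ev_xAH] at h1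
      have h2 := le_abs_self ((if b2 then 1 else -1 : ℝ) * ev (env w k t0 y') (xAH e))
      rw [abs_mul, abs_sg, one_mul] at h2
      have h3 := mul_le_mul_of_nonneg_left
        (S2_le_B' hw (by linarith [h.inn t0 y' h01 hy'] : w 0 t0 y' ≤ T - t0)) hK0.le
      linarith
  · rintro ⟨b1, b2⟩ s y hs0 hs1 hy0 hy1 hz hp
    have hs : s ∈ Icc t0 t1 := ⟨hs0.le, hs1⟩
    have hτs : 0 < T - s := by linarith [(hτ s hs).1]
    have hcs := hcons s hs fun i y a b => hp i s y hs0.le le_rfl a b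
    cases b1
    · have hy : y ∈ Icc 0 X := ⟨hy0, hy1⟩
      have hw := h.sol.pos s y hs hy
      have hg := h.good s y hs hy
      simp only [F, Bool.false_eq_true, if_false] at hz
      rcases hy1.eq_or_lt with hyX | hyX
      · have h1 := small_lt h.m0 (hyX ▸ h.lowX s hs) (h.w1 s y hs hy).1 hg.bC hKC hK0
        rw [← ev_xCH] at h1
        have p1 : 0 < K / 100 * ((T - s) ^ (15 / 8 : ℝ) * w 0 s y ^ (-(9 / 8) : ℝ)) := by
          positivity
        have h2 := le_abs_self ((if b2 then 1 else -1 : ℝ) * ev (env w k s y) (xCH e))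
        rw [abs_mul, abs_sg, one_mul] at h2
        simp only [bar] at hz
        linarith
      · have hzz : 0 ≤ 1 - y * k 0 s y := by linarith [(abs_le.1 hg.hk).2]
        have h1 := touch_bar h.sol h.he h.hT (K / 100) (15 / 8) (-(9 / 8)) K (3 / 4) _ hG0
          (xCH e) (r := fun _ => X) continuousOn_const (fun _ _ => le_rfl) hs0 hs1 hy0 hyX hzz hz
          (fun s' y' a b c d => hp (false, b2) s' y' a b c d)
        have h2 := (hcs y hy).1
        have h3 := hg.hC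
        have h4 := (h.w1 s y hs hy).2
        have h5 : 2 * e * y * (1 - y * k 0 s y) * w 1 s y ^ 2 / w 0 s y ≤ η := by
          rw [div_le_iff₀ hw]; exact hg.hZ
        have he := h.he
        have h6 : 0 ≤ 2 * e * y * (1 - y * k 0 s y) * w 1 s y ^ 2 / w 0 s y := by positivity
        rw [← ev_xAH, ← ev_xCH] at h3
        simp only [bar, add_zero] at hz h1
        generalize 2 * e * y * (1 - y * k 0 s y) * w 1 s y ^ 2 / w 0 s y = ζ at h1 h5 h6
        obtain ⟨u, hu, e1, e2, e3, -⟩ := rt8' hw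
        obtain ⟨v, hv, f1, -, -, -, -, f2, -⟩ := rt8' hτs
        rw [e2, e3, f2] at hz h1 h2
        rw [e1, f1] at h1
        rw [e1] at h4
        exact c_touch hη hu hv hy0 h4 h6 h5 hK0 (abs_sg b2) (sub_eq_zero.1 hz) h2 h3 h1
    · have hy' : min y ((T - s) / 200) ∈ Icc 0 ((T - s) / 200) :=
        ⟨le_min hy0 (hτ _ hs).1.le, min_le_right _ _⟩
      have hy : min y ((T - s) / 200) ∈ Icc 0 X := ⟨hy'.1, (min_le_left _ _).trans hy1⟩
      simp only [F, if_true] at hz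
      generalize min y ((T - s) / 200) = y' at *
      have hw := h.sol.pos s y' hs hy
      have hg := h.good s y' hs hy
      have hin := h.inn s y' hs hy'
      have h3 := mul_le_mul_of_nonneg_left (S2_le_B' hw (by linarith : w 0 s y' ≤ T - s)) hK0.le
      have p1 : 0 < K * ((T - s) ^ (15 / 8 : ℝ) * w 0 s y' ^ (-(9 / 8) : ℝ)) := by positivity
      have p2 : 0 < w 0 s y' ^ (3 / 4 : ℝ) := by positivity
      have h4 : |ev (env w k s y') (xCH e)| ≤
          2 * (K * ((T - s) ^ (15 / 8 : ℝ) * w 0 s y' ^ (-(9 / 8) : ℝ))) := by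
        linarith [(hcs y' hy).2]
      have hz' : (if b2 then 1 else -1 : ℝ) * ev (env w k s y') (xAH e) =
          K * ((T - s) ^ (15 / 8 : ℝ) * w 0 s y' ^ (-(9 / 8) : ℝ)) := by
        simp only [bar] at hz; linarith
      rcases hy'.2.eq_or_lt with hyX | hyX
      · have h1 := h.out s y' hs ⟨hyX.ge, hy.2⟩
        have h2 := le_abs_self ((if b2 then 1 else -1 : ℝ) * ev (env w k s y') (xAH e))
        rw [abs_mul, abs_sg, one_mul] at h2
        have h5 : 2 * η * |ev (env w k s y') (xCH e)| ≤ 1 / 8 * |ev (env w k s y') (xCH e)| :=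
          mul_le_mul_of_nonneg_right (by linarith) (abs_nonneg _)
        have h6 := mul_le_mul_of_nonneg_right hK p2.le
        linarith
      · have hzz : 0 ≤ 1 - y' * k 0 s y' := by linarith [(abs_le.1 hg.hk).2]
        have h1 := touch_bar h.sol h.he h.hT K (15 / 8) (-(9 / 8)) 0 0 _ hG0
          (xAH e) (r := fun s => (T - s) / 200) (by fun_prop) (fun s hs => (hτ s hs).2.le)
          hs0 hs1 hy.1 hyX hzz hz (fun s' y'' a b c d => by
            have := hp (true, b2) s' y'' a b c (d.trans (hτ s' ⟨a, b.trans hs1⟩).2.le)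
            simpa only [F, if_true, min_eq_left d] using this)
        have h5 : 2 * e * y' * (1 - y' * k 0 s y') * w 1 s y' ^ 2 / w 0 s y' ≤ η := by
          rw [div_le_iff₀ hw]; exact hg.hZ
        have h6 := hg.hA
        rw [← ev_xAH, ← ev_xCH] at h6
        simp only [zero_mul, sub_zero, add_zero] at h1
        exact a_touch hη hw hin h5 p1 (abs_sg b2) hz' h4 h6 (h.he.trans hg.he) h1

end

end Crest.Agent.N207.S.In
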