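import Crest.Agent.N207.S.In.Box

/-!
Row 207 (S0320): pointwise inequalities for the curvature system under the first regularity bounds.
-/

set_option autoImplicit false

open Set

namespace Crest.Agent.N207.S.In

noncomputable section

abbrev V6 := ℝ × ℝ × ℝ × ℝ × ℝ × ℝ

def nz (v : V6) : ℝ := 1 - v.1 * v.2.2.2.2.2 * v.2.2.2.1
def nL (v : V6) : ℝ := v.2.2.2.1 + v.2.2.2.2.2 * v.2.2.2.2.1
def nU (v : V6) : ℝ := v.2.2.2.2.2 * nz v * v.2.1 ^ 2 / 2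
def nS (v : V6) : ℝ :=
  nU v - (v.2.2.2.2.2 * nz v * v.2.2.1 + (nz v - v.1 * v.2.2.2.2.2 * nL v) * v.2.1 / 2)
def nA (v : V6) : ℝ := v.1 * nS v + 1 / 2 - v.1 * nU v - (1 + v.1) * nz v * v.2.1 / 2
def nB (v : V6) : ℝ := v.1 * nL v / 2 + v.2.2.2.1 / 2 - nz v * v.2.1
def nC (v : V6) : ℝ := 2 * nS v + (1 + v.1) * nL v / 2
def nAH (v : V6) : ℝ := (1 + 2 * v.1) * nA v - (1 + v.1) * v.1 * nB v - v.1 ^ 2 * nC v
def nCH (v : V6) : ℝ :=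
  (1 + 3 * v.1) * v.1 * nC v - 2 * v.1 * nA v - (1 + v.1) * v.1 * nB v
def nR (v : V6) : ℝ := 2 * nA v + (1 + v.1) * nB v + v.1 * nC v
def nD (v : V6) : ℝ := (1 + v.1) * (1 + 4 * v.1) ^ 2
def nQ (v : V6) : ℝ := (1 + v.1) * 2 * nAH v + v.1 * (4 * nAH v + 4 * nCH v)
def g1 (v : V6) : ℝ :=
  nD v * (-4 * nU v + 2 * nz v * v.2.1) + 2 * (1 + v.1) * (1 + 4 * v.1) * nR v - 2 * nQ v
def g2 (v : V6) : ℝ :=
  nD v * (2 * nU v + nz v * v.2.1 + 2 * nS v) - 2 * (1 + 2 * v.1) * nCH v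
def g3 (v : V6) : ℝ :=
  nD v * (4 * v.2.2.2.2.2 * (nU v + nS v - v.1 * nL v / 2) - 2 * nz v) - 2 * v.2.2.2.2.2 * nQ v
def g4 (v : V6) : ℝ :=
  nD v * (v.2.2.2.2.2 * (-4 * nU v - v.1 * nL v) - 2 + (1 + 2 * v.1) * v.2.2.2.2.2 * v.2.2.2.1) +
    v.2.2.2.2.2 * (2 * (1 + v.1) * (1 + 4 * v.1) * nR v - 2 * (1 + 2 * v.1) * nCH v)
/-- All the normalised quantities that have to be bounded. -/
def gAll (v : V6) : ℝ :=
  |g1 v| + |g2 v| + |g3 v| + |g4 v| + |nAH v| + |nCH v| + |nR v| + |nU v| +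
    |v.2.2.2.2.2 * v.2.2.2.1| + |v.2.2.2.2.2 * v.2.1| + |v.2.2.2.2.2 * nL v|

theorem continuous_gAll : Continuous gAll := by
  unfold gAll g1 g2 g3 g4 nQ nD nR nCH nAH nC nB nA nS nU nL nz
  fun_prop

theorem exists_bd (C0 : ℝ) : ∃ C : ℝ, 1 ≤ C ∧ ∀ e P p κ0 κ1 ξ : ℝ, 0 ≤ e → e ≤ 1 → |P| ≤ C0 →
    |p| ≤ C0 → |κ0| ≤ C0 → |κ1| ≤ C0 → 0 ≤ ξ → ξ ≤ 2 → gAll (e, P, p, κ0, κ1, ξ) ≤ C := by
  have hK : IsCompact (Icc (0 : ℝ) 1 ×ˢ Icc (-C0) C0 ×ˢ Icc (-C0) C0 ×ˢ Icc (-C0) C0 ×ˢ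
      Icc (-C0) C0 ×ˢ Icc (0 : ℝ) 2) :=
    isCompact_Icc.prod (isCompact_Icc.prod (isCompact_Icc.prod (isCompact_Icc.prod
      (isCompact_Icc.prod isCompact_Icc))))
  obtain ⟨C, hC⟩ := (hK.image continuous_gAll).bddAbove
  refine ⟨max C 1, le_max_right _ _, fun e P p κ0 κ1 ξ a1 a2 a3 a4 a5 a6 a7 a8 => ?_⟩
  exact (hC ⟨_, ⟨⟨a1, a2⟩, abs_le.1 a3, abs_le.1 a4, abs_le.1 a5, abs_le.1 a6, a7, a8⟩,
    rfl⟩).trans (le_max_left _ _)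

theorem gAll_bds {v : V6} {C : ℝ} (h : gAll v ≤ C) : |g1 v| ≤ C ∧ |g2 v| ≤ C ∧ |g3 v| ≤ C ∧
    |g4 v| ≤ C ∧ |nAH v| ≤ C ∧ |nCH v| ≤ C ∧ |nR v| ≤ C ∧ |nU v| ≤ C ∧
    |v.2.2.2.2.2 * v.2.2.2.1| ≤ C ∧ |v.2.2.2.2.2 * v.2.1| ≤ C ∧ |v.2.2.2.2.2 * nL v| ≤ C := by
  unfold gAll at h
  have n1 := abs_nonneg (g1 v)
  have n2 := abs_nonneg (g2 v)
  have n3 := abs_nonneg (g3 v)
  have n4 := abs_nonneg (g4 v)
  have n5 := abs_nonneg (nAH v)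
  have n6 := abs_nonneg (nCH v)
  have n7 := abs_nonneg (nR v)
  have n8 := abs_nonneg (nU v)
  have n9 := abs_nonneg (v.2.2.2.2.2 * v.2.2.2.1)
  have n10 := abs_nonneg (v.2.2.2.2.2 * v.2.1)
  have n11 := abs_nonneg (v.2.2.2.2.2 * nL v)
  refine ⟨?_, ?_, ?_, ?_, ?_, ?_, ?_, ?_, ?_, ?_, ?_⟩ <;> linarith

theorem exists_norm {C0 e x w0 w2 k0 k1 : ℝ} (he : 0 < e) (hw : 0 < w0) (hx : 0 ≤ x)
    (h2 : |w0 * w2| ≤ C0) (h3 : |w0 * k0| ≤ C0 * e) (h4 : |w0 ^ 2 * k1| ≤ C0 * e)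
    (h5 : x ≤ 2 * w0) : ∃ p κ0 κ1 ξ : ℝ, |p| ≤ C0 ∧ |κ0| ≤ C0 ∧ |κ1| ≤ C0 ∧ 0 ≤ ξ ∧ ξ ≤ 2 ∧
      x = ξ * w0 ∧ w2 = p / w0 ∧ k0 = e * κ0 / w0 ∧ k1 = e * κ1 / w0 ^ 2 := by
  refine ⟨w0 * w2, w0 * k0 / e, w0 ^ 2 * k1 / e, x / w0, h2, ?_, ?_, by positivity, ?_,
    by field_simp, by field_simp, by field_simp, by field_simp⟩
  · rw [abs_div, abs_of_pos he, div_le_iff₀ he]; exact h3
  · rw [abs_div, abs_of_pos he, div_le_iff₀ he]; exact h4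
  · rw [div_le_iff₀ hw]; exact h5

section norm
variable {e w0 P p κ0 κ1 ξ : ℝ}

theorem kSF_n (hw : w0 ≠ 0) : kSF e (ξ * w0) w0 P (p / w0) (e * κ0 / w0) (e * κ1 / w0 ^ 2) =
    e * nS (e, P, p, κ0, κ1, ξ) / w0 := by
  simp only [kSF, nS, nU, nL, nz]; field_simp; ring

theorem ricA_n (hw : w0 ≠ 0) : ricA e (ξ * w0) w0 P (p / w0) (e * κ0 / w0) (e * κ1 / w0 ^ 2) =
    nA (e, P, p, κ0, κ1, ξ) / w0 := by
  simp only [ricA, kSF_n hw, nA, nU, nz]; field_simp; ring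

theorem ricB_n (hw : w0 ≠ 0) : ricB e (ξ * w0) w0 P (e * κ0 / w0) (e * κ1 / w0 ^ 2) =
    e * nB (e, P, p, κ0, κ1, ξ) / w0 := by
  simp only [ricB, nB, nL, nz]; field_simp

theorem ricC_n (hw : w0 ≠ 0) : ricC e (ξ * w0) w0 P (p / w0) (e * κ0 / w0) (e * κ1 / w0 ^ 2) =
    e * nC (e, P, p, κ0, κ1, ξ) / w0 := by
  simp only [ricC, kSF_n hw, nC, nL]; field_simp

theorem aH_n (hw : w0 ≠ 0) : aH e (ξ * w0) w0 P (p / w0) (e * κ0 / w0) (e * κ1 / w0 ^ 2) =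
    nAH (e, P, p, κ0, κ1, ξ) / w0 := by
  simp only [aH, ricA_n hw, ricB_n (p := p) hw, ricC_n hw, nAH]; field_simp

theorem cH_n (hw : w0 ≠ 0) : cH e (ξ * w0) w0 P (p / w0) (e * κ0 / w0) (e * κ1 / w0 ^ 2) =
    nCH (e, P, p, κ0, κ1, ξ) / w0 := by
  simp only [cH, ricA_n hw, ricB_n (p := p) hw, ricC_n hw, nCH]; field_simp

theorem rE_n (hw : w0 ≠ 0) : rE e (ξ * w0) w0 P (p / w0) (e * κ0 / w0) (e * κ1 / w0 ^ 2) =
    e * nR (e, P, p, κ0, κ1, ξ) / w0 := by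
  simp only [rE, ricA_n hw, ricB_n (p := p) hw, ricC_n hw, nR]; field_simp

end norm

theorem lin_bd {D e C g g' a c X : ℝ} (hD : 1 ≤ D) (he : 0 ≤ e) (hg : |g| ≤ C) (hg' : |g'| ≤ C)
    (h : D * X = e * (g * a + g' * c)) : |X| ≤ C * e * (|a| + |c|) := by
  have h1 : |X| ≤ |D * X| := by
    rw [abs_mul, abs_of_pos (by linarith : 0 < D)]; nlinarith [abs_nonneg X]
  have h2 : |g * a + g' * c| ≤ C * (|a| + |c|) := by
    refine (abs_add_le _ _).trans ?_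
    rw [abs_mul, abs_mul]
    nlinarith [abs_nonneg a, abs_nonneg c]
  rw [h, abs_mul, abs_of_nonneg he] at h1
  nlinarith

/-- The pointwise facts, with smallness parameter `η` and size constant `C`. -/
structure Good (η C e x w0 w1 w2 k0 k1 BA BC BR : ℝ) : Prop where
  hA : |w0 * BA - aH e x w0 w1 w2 k0 k1| ≤
    η * (|aH e x w0 w1 w2 k0 k1| + |cH e x w0 w1 w2 k0 k1|)
  hC : |x * BC + cH e x w0 w1 w2 k0 k1| ≤
    η * (|aH e x w0 w1 w2 k0 k1| + |cH e x w0 w1 w2 k0 k1|)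
  hR0 : 0 ≤ BR
  hR1 : BR ≤ aH e x w0 w1 w2 k0 k1 ^ 2 + cH e x w0 w1 w2 k0 k1 ^ 2 +
    2 * rE e x w0 w1 w2 k0 k1 ^ 2
  bA : w0 * |aH e x w0 w1 w2 k0 k1| ≤ C
  bC : w0 * |cH e x w0 w1 w2 k0 k1| ≤ C
  bR : w0 * |rE e x w0 w1 w2 k0 k1| ≤ η
  hk : |x * k0| ≤ η
  hk1 : |x * (k0 + x * k1)| ≤ η
  hZ : 2 * e * x * (1 - x * k0) * w1 ^ 2 ≤ η * w0
  hP : e * |x * w1| ≤ η * w0
  he : e ≤ η

theorem ric_sq {e a b c : ℝ} (he : 0 ≤ e) (he1 : e ≤ 1 / 10) :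
    2 * (2 * e * a ^ 2 + (1 + e) * b ^ 2 + e * c ^ 2) ≤
      ((1 + 2 * e) * a - (1 + e) * b - e * c) ^ 2 + ((1 + 3 * e) * c - 2 * e * a - (1 + e) * b) ^ 2
        + 2 * (2 * e * a + (1 + e) * b + e * c) ^ 2 := by
  set A := (1 + 2 * e) * a - (1 + e) * b - e * c with hA
  set C := (1 + 3 * e) * c - 2 * e * a - (1 + e) * b with hC
  set R := 2 * e * a + (1 + e) * b + e * c with hR
  have hD : 1 ≤ (1 + e) * (1 + 4 * e) ^ 2 := by nlinarith [mul_nonneg he he]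
  have key : (1 + e) * (1 + 4 * e) ^ 2 * (2 * (2 * e * a ^ 2 + (1 + e) * b ^ 2 + e * c ^ 2)) =
      2 * e * qq e A C + 2 * (1 + e) * (1 + 4 * e) * R ^ 2 := by
    simp only [qq, hA, hC, hR]; ring
  have h1 : 2 * e * qq e A C ≤ A ^ 2 + C ^ 2 := by
    have : qq e A C ≤ 4 * (A ^ 2 + C ^ 2) := by
      simp only [qq]
      nlinarith [sq_nonneg A, sq_nonneg C, sq_nonneg (A - 2 * C), mul_nonneg he (sq_nonneg A),
        mul_nonneg he (sq_nonneg C), mul_nonneg he (sq_nonneg (A - 2 * C))]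
    nlinarith [sq_nonneg A, sq_nonneg C]
  have h2 : 2 * (1 + e) * (1 + 4 * e) * R ^ 2 ≤ (1 + e) * (1 + 4 * e) ^ 2 * (2 * R ^ 2) := by
    have : 0 ≤ (1 + e) * (1 + 4 * e) * R ^ 2 := by positivity
    nlinarith
  have h3 : A ^ 2 + C ^ 2 ≤ (1 + e) * (1 + 4 * e) ^ 2 * (A ^ 2 + C ^ 2) := by
    nlinarith [sq_nonneg A, sq_nonneg C]
  have h4 : (1 + e) * (1 + 4 * e) ^ 2 * (2 * (2 * e * a ^ 2 + (1 + e) * b ^ 2 + e * c ^ 2)) ≤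
      (1 + e) * (1 + 4 * e) ^ 2 * (A ^ 2 + C ^ 2 + 2 * R ^ 2) := by
    rw [key]; nlinarith
  exact le_of_mul_le_mul_left h4 (by linarith)

theorem exists_good (C0 η : ℝ) (hη : 0 < η) : ∃ e0 C : ℝ, 0 < e0 ∧ 1 ≤ C ∧
    ∀ {e t0 t1 xs : ℝ} {w wt k kt : ℕ → ℝ → ℝ → ℝ}, 0 < e → e ≤ e0 → 0 < xs →
      XSol e t0 t1 xs w wt k kt → Reg1 C0 e t0 t1 xs w k → ∀ t x, t ∈ Icc t0 t1 → x ∈ Icc 0 xs →
        Good η C e x (w 0 t x) (w 1 t x) (w 2 t x) (k 0 t x) (k 1 t x)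
          (box e w wt k kt (xAH e) t x) (box e w wt k kt (xCH e) t x)
          (box e w wt k kt (xRE e) t x) := by
  obtain ⟨C, hC1, hC⟩ := exists_bd C0
  refine ⟨min (1 / 10) (η / (4 * C)), C, by positivity, hC1, ?_⟩
  intro e t0 t1 xs w wt k kt he hee hxs h hR t x ht hx
  have he1 : e ≤ 1 / 10 := hee.trans (min_le_left _ _)
  have he2 : 4 * C * e ≤ η := by
    have := hee.trans (min_le_right _ _)
    rw [le_div_iff₀ (by positivity)] at this; linarith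
  have hA := box_aH h hxs ht hx
  have hCc := box_cH h hxs ht hx
  have hRr := box_rE h hxs ht hx
  have hU : ev (env w k t x) (xU e) =
      e / 2 * x * (1 - x * k 0 t x) * w 1 t x ^ 2 * (w 0 t x)⁻¹ ^ 2 := by
    simp only [xU, xZ, ev_sub, ev_mul, ev_v, ev_c, env]; ring
  rw [ev_xAH, ev_xCH, ev_xRE, ev_xS, hU] at hA hCc
  rw [ev_xA, ev_xB, ev_xC] at hRr
  obtain ⟨r1, r2, r3, r4, r5⟩ := hR t x ht hx
  have hw := h.pos t x ht hx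
  generalize box e w wt k kt (xAH e) t x = BA at *
  generalize box e w wt k kt (xCH e) t x = BC at *
  generalize box e w wt k kt (xRE e) t x = BR at *
  generalize w 0 t x = w0 at *
  generalize w 1 t x = P at *
  generalize w 2 t x = w2 at *
  generalize k 0 t x = k0 at *
  generalize k 1 t x = k1 at *
  obtain ⟨p, κ0, κ1, ξ, s1, s2, s3, s4, s5, rfl, rfl, rfl, rfl⟩ :=
    exists_norm he hw hx.1 r2 r3 r4 r5
  have hb := hC e P p κ0 κ1 ξ he.le (by linarith) r1 s1 s2 s3 s4 s5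
  have hw' := hw.ne'
  obtain ⟨n1, n2, n3, n4, n5, n6, n7, n8, n9, n10, n11⟩ := gAll_bds hb
  have hD : 1 ≤ (1 + e) * (1 + 4 * e) ^ 2 :=
    one_le_mul_of_one_le_of_one_le (by linarith) (one_le_pow₀ (by linarith))
  have hCe0 : 0 ≤ C * e := by positivity
  have hCe : C * e ≤ η := by linarith
  have habs : ∀ a c : ℝ, C * e * (|a| + |c|) ≤ η * (|a| + |c|) := fun a c =>
    mul_le_mul_of_nonneg_right hCe (by positivity)
  have hm : ∀ g : ℝ, g ≤ C → e * g ≤ C * e := fun g hg => by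
    rw [mul_comm C e]; exact mul_le_mul_of_nonneg_left hg he.le
  refine ⟨?_, ?_, ?_, ?_, ?_, ?_, ?_, ?_, ?_, ?_, ?_, by linarith [hm 1 hC1]⟩
  · refine (lin_bd (g := g1 (e, P, p, κ0, κ1, ξ)) (g' := g2 (e, P, p, κ0, κ1, ξ)) hD he.le
      n1 n2 ?_).trans (habs _ _)
    have : (1 + e) * (1 + 4 * e) ^ 2 * (w0 * BA) = w0 * ((1 + e) * (1 + 4 * e) ^ 2 * BA) := by ring
    rw [mul_sub, this, hA, aH_n hw', cH_n hw', rE_n hw', kSF_n hw']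
    simp only [qq, g1, g2, nQ, nD, nU, nz]
    field_simp
    ring
  · refine (lin_bd (g := g3 (e, P, p, κ0, κ1, ξ)) (g' := g4 (e, P, p, κ0, κ1, ξ)) hD he.le
      n3 n4 ?_).trans (habs _ _)
    rw [mul_add, hCc, aH_n hw', cH_n hw', rE_n hw', kSF_n hw']
    simp only [qq, g3, g4, nQ, nD, nU, nz, nL]
    field_simp
    ring
  · rw [hRr]; positivity
  · rw [hRr]; exact ric_sq he.le he1
  · rw [aH_n hw', abs_div, abs_of_pos hw, mul_div_cancel₀ _ hw']; exact n5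
  · rw [cH_n hw', abs_div, abs_of_pos hw, mul_div_cancel₀ _ hw']; exact n6
  · rw [rE_n hw', abs_div, abs_of_pos hw, mul_div_cancel₀ _ hw', abs_mul, abs_of_pos he]
    exact (hm _ n7).trans hCe
  · have : ξ * w0 * (e * κ0 / w0) = e * (ξ * κ0) := by field_simp
    rw [this, abs_mul, abs_of_pos he]; exact (hm _ n9).trans hCe
  · have : ξ * w0 * (e * κ0 / w0 + ξ * w0 * (e * κ1 / w0 ^ 2)) =
        e * (ξ * nL (e, P, p, κ0, κ1, ξ)) := by simp only [nL]; field_simp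
    rw [this, abs_mul, abs_of_pos he]; exact (hm _ n11).trans hCe
  · have : 2 * e * (ξ * w0) * (1 - ξ * w0 * (e * κ0 / w0)) * P ^ 2 =
        4 * e * nU (e, P, p, κ0, κ1, ξ) * w0 := by simp only [nU, nz]; field_simp; ring
    rw [this]
    refine mul_le_mul_of_nonneg_right ?_ hw.le
    linarith [hm _ ((le_abs_self (nU (e, P, p, κ0, κ1, ξ))).trans n8)]
  · have : ξ * w0 * P = ξ * P * w0 := by ring
    rw [this, abs_mul, abs_of_pos hw, ← mul_assoc]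
    exact mul_le_mul_of_nonneg_right ((hm _ n10).trans hCe) hw.le

end

end Crest.Agent.N207.S.In
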