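import Crest.Agent.N207.S.In.Alg

/-!
Row 207 (S0320): barriers `K₁ τ^p w^γ + K₂ w^δ + G(t)` at a touching point, and the arithmetic of
the barriers in terms of eighth roots.
-/

set_option autoImplicit false

open Set

namespace Crest.Agent.N207.S.In

noncomputable section

variable {e t0 t1 xs : ℝ} {w wt k kt : ℕ → ℝ → ℝ → ℝ}

/-- The barrier. -/
def bar (T K1 p γ K2 δ : ℝ) (G : ℝ → ℝ) (w : ℝ → ℝ → ℝ) (t x : ℝ) : ℝ :=
  K1 * ((T - t) ^ p * w t x ^ γ) + K2 * w t x ^ δ + G t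

theorem hasDerivAt_tau {T t : ℝ} (p : ℝ) (h : t < T) :
    HasDerivAt (fun s => (T - s) ^ p) (-(p * (T - t) ^ p / (T - t))) t := by
  have h0 : T - t ≠ 0 := (sub_pos.2 h).ne'
  have := ((hasDerivAt_id t).const_sub T).rpow_const (p := p) (Or.inl h0)
  refine HasDerivAt.congr_deriv this ?_
  simp only [id]
  rw [Real.rpow_sub_one h0]; ring

theorem continuousOn_bar (h : XSol e t0 t1 xs w wt k kt) {T : ℝ} (hT : t1 < T)
    (K1 p γ K2 δ : ℝ) {G G' : ℝ → ℝ} (hG : ∀ t ∈ Icc t0 t1, HasDerivAt G (G' t) t) :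
    ContinuousOn (fun q : ℝ × ℝ => bar T K1 p γ K2 δ G (w 0) q.1 q.2) (Icc t0 t1 ×ˢ Icc 0 xs) :=
  ((((((h.jw.pk 0).rpow γ h.pos).tmul (fun _ ht => hasDerivAt_tau p (ht.2.trans_lt hT))).cmul
    K1).add (((h.jw.pk 0).rpow δ h.pos).cmul K2)).add (Pk.time hG)).cont

theorem touch_bar (h : XSol e t0 t1 xs w wt k kt) (he : 0 ≤ e) {T : ℝ} (hT : t1 < T)
    (K1 p γ K2 δ σ : ℝ) {G G' : ℝ → ℝ} (hG : ∀ t ∈ Icc t0 t1, HasDerivAt G (G' t) t) (E : Ex)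
    {r : ℝ → ℝ} (hr : ContinuousOn r (Icc t0 t1)) (hrs : ∀ s ∈ Icc t0 t1, r s ≤ xs) {t x : ℝ}
    (h0 : t0 < t) (h1 : t ≤ t1) (hx0 : 0 ≤ x) (hx1 : x < r t) (hzz : 0 ≤ 1 - x * k 0 t x)
    (hz : σ * ev (env w k t x) E - bar T K1 p γ K2 δ G (w 0) t x = 0)
    (hp : ∀ s y, t0 ≤ s → s ≤ t → 0 ≤ y → y ≤ r s →
      σ * ev (env w k s y) E - bar T K1 p γ K2 δ G (w 0) s y ≤ 0) :
    K1 * ((T - t) ^ p * w 0 t x ^ γ) * (-(p / (T - t)) -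
        (γ + γ ^ 2 * (2 * e * x * (1 - x * k 0 t x) * w 1 t x ^ 2 / w 0 t x)) / w 0 t x) -
      K2 * w 0 t x ^ δ *
        ((δ + δ ^ 2 * (2 * e * x * (1 - x * k 0 t x) * w 1 t x ^ 2 / w 0 t x)) / w 0 t x) +
      G' t ≤ σ * box e w wt k kt E t x := by
  have hB := ((((((h.jw.pk 0).rpow γ h.pos).tmul
    (fun t ht => hasDerivAt_tau p (ht.2.trans_lt hT))).cmul
    K1).add (((h.jw.pk 0).rpow δ h.pos).cmul K2)).add (Pk.time hG))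
  have hF := ((Pk.ev (pk_env h) E).cmul σ).sub hB
  have hm : t ∈ Icc t0 t1 := ⟨h0.le, h1⟩
  have hxm : x ∈ Icc 0 xs := ⟨hx0, hx1.le.trans (hrs t hm)⟩
  have := hF.touch hr hrs (Z := 2 * e * x * (1 - x * k 0 t x))
    (β := 1 + 2 * e * (1 - x * k 0 t x)) h0 h1 hx0 hx1 hz hp (by positivity)
    (fun h => by rw [h]; ring) (by positivity)
  rw [h.eqW t x hm hxm] at this
  have hw := (h.pos t x hm hxm).ne'
  have hτ : T - t ≠ 0 := (sub_pos.2 (h1.trans_lt hT)).ne'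
  rw [← sub_nonneg]
  refine this.trans_eq ?_
  simp only [box, rhsW, zero_add]
  field_simp
  ring

/-! ### eighth roots -/

theorem rt8 {w : ℝ} (hw : 0 < w) : ∃ u : ℝ, 0 < u ∧ w = u ^ 8 ∧
    (∀ n : ℕ, w ^ ((n : ℝ) / 8) = u ^ n) ∧ ∀ n : ℕ, w ^ (-((n : ℝ) / 8)) = (u ^ n)⁻¹ := by
  have h : ∀ n : ℕ, w ^ ((n : ℝ) / 8) = (w ^ (1 / 8 : ℝ)) ^ n := fun n => by
    rw [← Real.rpow_natCast, ← Real.rpow_mul hw.le]; congr 1; ring
  refine ⟨w ^ (1 / 8 : ℝ), by positivity, ?_, h, fun n => by rw [Real.rpow_neg hw.le, h]⟩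
  rw [← h 8]; norm_num

theorem rt8' {w : ℝ} (hw : 0 < w) : ∃ u : ℝ, 0 < u ∧ w = u ^ 8 ∧ w ^ (3 / 4 : ℝ) = u ^ 6 ∧
    w ^ (-(9 / 8) : ℝ) = (u ^ 9)⁻¹ ∧ w ^ (-(5 / 4) : ℝ) = (u ^ 10)⁻¹ ∧
    w ^ (-(1 / 8) : ℝ) = u⁻¹ ∧ w ^ (15 / 8 : ℝ) = u ^ 15 ∧ w ^ (15 / 4 : ℝ) = u ^ 30 ∧
    w ^ (1 / 4 : ℝ) = u ^ 2 := by
  obtain ⟨u, h0, h1, h2, h3⟩ := rt8 hw
  refine ⟨u, h0, h1, ?_, ?_, ?_, ?_, ?_, ?_, ?_⟩
  · rw [← h2 6]; norm_num
  · rw [← h3 9]; norm_num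
  · rw [← h3 10]; norm_num
  · have := h3 1
    rw [pow_one] at this
    rw [← this]; norm_num
  · rw [← h2 15]; norm_num
  · rw [← h2 30]; norm_num
  · rw [← h2 2]; norm_num

theorem le_of_pow8 {s u a : ℝ} (hu : 0 ≤ u) (ha : 0 ≤ a) (h : s ^ 8 ≤ a ^ 8 * u ^ 8) :
    s ≤ a * u := by
  rw [← mul_pow] at h
  exact le_of_pow_le_pow_left₀ (by norm_num) (by positivity) h

theorem S2_le_B {u s : ℝ} (hu : 0 < u) (h : u ^ 8 ≤ s ^ 8) (hs : 0 < s) :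
    u ^ 6 ≤ s ^ 15 * (u ^ 9)⁻¹ := by
  have h1 : u ≤ s := by simpa using le_of_pow8 (a := 1) hs.le zero_le_one (by simpa using h)
  rw [← div_eq_mul_inv, le_div_iff₀ (by positivity)]
  calc u ^ 6 * u ^ 9 = u ^ 15 := by ring
    _ ≤ s ^ 15 := pow_le_pow_left₀ hu.le h1 15

/-- Interior touching of the barrier for `a`. -/
theorem a_touch {η w τ ζ B σ a c BA : ℝ} (hη : η ≤ 1 / 1000) (hw : 0 < w) (hτ : 60 * w ≤ τ)
    (hζ : ζ ≤ η) (hB : 0 < B) (hσ : |σ| = 1) (ha : σ * a = B) (hc : |c| ≤ 2 * B)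
    (hA : |w * BA - a| ≤ η * (|a| + |c|)) (hη0 : 0 ≤ η)
    (ht : B * (-(15 / 8 / τ) - (-(9 / 8) + (-(9 / 8)) ^ 2 * ζ) / w) ≤ σ * BA) : False := by
  have hτ0 : 0 < τ := by linarith
  have h1 : |a| = B := by rw [← ha, ← abs_of_pos (ha ▸ hB : 0 < σ * a), abs_mul, hσ, one_mul]
  have h2 : σ * (w * BA - a) ≤ 3 * η * B := by
    refine (le_abs_self _).trans ?_
    rw [abs_mul, hσ, one_mul]
    refine hA.trans ?_
    rw [h1]; nlinarith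
  have h3 : 15 / 8 / τ * w ≤ 1 / 32 := by
    rw [div_mul_eq_mul_div, div_le_iff₀ hτ0]; linarith
  have h4 := mul_le_mul_of_nonneg_left ht hw.le
  have h5 : w * (B * (-(15 / 8 / τ) - (-(9 / 8) + (-(9 / 8)) ^ 2 * ζ) / w)) =
      B * (-(15 / 8 / τ * w) + 9 / 8 - 81 / 64 * ζ) := by field_simp; ring
  rw [h5] at h4
  have h6 : B * (1 + 3 * η) < B * (-(15 / 8 / τ * w) + 9 / 8 - 81 / 64 * ζ) :=
    mul_lt_mul_of_pos_left (by linarith) hB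
  nlinarith

/-- Touching of the barrier for `c`. -/
theorem c_touch {η u s x ζ K σ a c BC : ℝ} (hη : η ≤ 1 / 1000) (hu : 0 < u) (hs : 0 < s)
    (hx0 : 0 ≤ x) (hx : 9 * x ≤ 10 * u ^ 8) (hζ0 : 0 ≤ ζ) (hζ : ζ ≤ η) (hK : 0 < K)
    (hσ : |σ| = 1) (hc : σ * c = K / 100 * (s ^ 15 * (u ^ 9)⁻¹) + K * u ^ 6)
    (ha : |a| ≤ 2 * (K * (s ^ 15 * (u ^ 9)⁻¹)) + K * u ^ 6)
    (hC : |x * BC + c| ≤ η * (|a| + |c|))
    (ht : K / 100 * (s ^ 15 * (u ^ 9)⁻¹) *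
        (-(15 / 8 / s ^ 8) - (-(9 / 8) + (-(9 / 8)) ^ 2 * ζ) / u ^ 8) -
      K * u ^ 6 * ((3 / 4 + (3 / 4) ^ 2 * ζ) / u ^ 8) ≤ σ * BC) : False := by
  have hη0 : 0 ≤ η := hζ0.trans hζ
  obtain ⟨B, hB⟩ : ∃ B, B = K * (s ^ 15 * (u ^ 9)⁻¹) := ⟨_, rfl⟩
  obtain ⟨S, hS⟩ : ∃ S, S = K * u ^ 6 := ⟨_, rfl⟩
  have hB0 : 0 < B := by rw [hB]; positivity
  have hS0 : 0 < S := by rw [hS]; positivity
  have e1 : K / 100 * (s ^ 15 * (u ^ 9)⁻¹) = B / 100 := by rw [hB]; ring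
  rw [e1, ← hS] at hc ht
  rw [← hB, ← hS] at ha
  have h1 : |c| = B / 100 + S := by
    rw [← hc, ← abs_of_pos (by rw [hc]; positivity : 0 < σ * c), abs_mul, hσ, one_mul]
  have h2 : σ * (x * BC + c) ≤ 1 / 1000 * (3 * B + 2 * S) := by
    refine (le_abs_self _).trans ?_
    rw [abs_mul, hσ, one_mul]
    refine hC.trans ?_
    rw [h1]
    exact mul_le_mul hη (by linarith) (by positivity) (by norm_num)
  have hξ : x / u ^ 8 ≤ 10 / 9 := by rw [div_le_iff₀ (by positivity)]; linarith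
  have hξ0 : 0 ≤ x / u ^ 8 := by positivity
  have h3 : x * (S * ((3 / 4 + (3 / 4) ^ 2 * ζ) / u ^ 8)) ≤ 84 / 100 * S := by
    have : x * (S * ((3 / 4 + (3 / 4) ^ 2 * ζ) / u ^ 8)) =
        (x / u ^ 8 * (3 / 4 + (3 / 4) ^ 2 * ζ)) * S := by ring
    rw [this]
    refine mul_le_mul_of_nonneg_right ?_ hS0.le
    nlinarith
  have h4 : -(5 / 100 * S) ≤ x * (B / 100 *
      (-(15 / 8 / s ^ 8) - (-(9 / 8) + (-(9 / 8)) ^ 2 * ζ) / u ^ 8)) := by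
    have hq : 1 / u ^ 8 ≤ -((-(9 / 8) + (-(9 / 8)) ^ 2 * ζ) / u ^ 8) := by
      rw [← neg_div]; exact div_le_div_of_nonneg_right (by linarith) (by positivity)
    by_cases hc2 : 2 * u ^ 8 ≤ s ^ 8
    · have : 15 / 8 / s ^ 8 ≤ 1 / u ^ 8 := by
        rw [div_le_div_iff₀ (by positivity) (by positivity)]
        have : 0 < u ^ 8 := by positivity
        linarith
      have : 0 ≤ x * (B / 100 *
          (-(15 / 8 / s ^ 8) - (-(9 / 8) + (-(9 / 8)) ^ 2 * ζ) / u ^ 8)) :=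
        mul_nonneg hx0 (mul_nonneg (by positivity) (by linarith))
      linarith
    · have h5 : s ≤ 11 / 10 * u := by
        refine le_of_pow8 hu.le (by norm_num) ?_
        have : 0 < u ^ 8 := by positivity
        norm_num; linarith
      have h6 : s ^ 7 ≤ 2 * u ^ 7 := by
        refine (pow_le_pow_left₀ hs.le h5 7).trans ?_
        rw [mul_pow]
        exact mul_le_mul_of_nonneg_right (by norm_num) (by positivity)
      have h7 : x * (B / s ^ 8) ≤ 20 / 9 * S := by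
        have : x * (B / s ^ 8) = x / u ^ 8 * (s ^ 7 / u ^ 7) * S := by
          rw [hB, hS]; field_simp
        rw [this]
        refine mul_le_mul_of_nonneg_right ?_ hS0.le
        have h8 : s ^ 7 / u ^ 7 ≤ 2 := by rw [div_le_iff₀ (by positivity)]; exact h6
        calc x / u ^ 8 * (s ^ 7 / u ^ 7) ≤ 10 / 9 * 2 :=
              mul_le_mul hξ h8 (by positivity) (by norm_num)
          _ = 20 / 9 := by norm_num
      have h9 : 0 ≤ x * (B / 100 * -((-(9 / 8) + (-(9 / 8)) ^ 2 * ζ) / u ^ 8)) :=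
        mul_nonneg hx0 (mul_nonneg (by positivity) (le_trans (by positivity) hq))
      have : x * (B / 100 * (-(15 / 8 / s ^ 8) - (-(9 / 8) + (-(9 / 8)) ^ 2 * ζ) / u ^ 8)) =
          -(15 / 800 * (x * (B / s ^ 8))) +
            x * (B / 100 * -((-(9 / 8) + (-(9 / 8)) ^ 2 * ζ) / u ^ 8)) := by ring
      rw [this]; linarith
  have h10 := mul_le_mul_of_nonneg_left ht hx0
  rw [mul_sub] at h10
  have h11 : σ * (x * BC + c) = x * (σ * BC) + (B / 100 + S) := by rw [← hc]; ring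
  linarith

/-- The common part of the two barriers for the scalar curvature. -/
theorem r_core {η u s ζ K a c : ℝ} (hη : η ≤ 1 / 1000) (hu : 0 < u) (hu1 : u ≤ 1) (hs : 0 < s)
    (hζ : ζ ≤ η) (hK : 0 < K)
    (ha : |a| ≤ 2 * (K * (s ^ 15 * (u ^ 9)⁻¹)) + K * u ^ 6)
    (hc : |c| ≤ K * (s ^ 15 * (u ^ 9)⁻¹) + K * u ^ 6) :
    a ^ 2 + c ^ 2 + 2 * η * (40 * K ^ 2 * (s ^ 30 * (u ^ 10)⁻¹)) / u ^ 8 - 20000 * K ^ 2 ≤
      40 * K ^ 2 * (s ^ 30 * (u ^ 10)⁻¹) *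
        (-(15 / 4 / s ^ 8) - (-(5 / 4) + (-(5 / 4)) ^ 2 * ζ) / u ^ 8) := by
  obtain ⟨B, hB⟩ : ∃ B, B = K * (s ^ 15 * (u ^ 9)⁻¹) := ⟨_, rfl⟩
  obtain ⟨S, hS⟩ : ∃ S, S = K * u ^ 6 := ⟨_, rfl⟩
  have hB0 : 0 < B := by rw [hB]; positivity
  have hS0 : 0 < S := by rw [hS]; positivity
  have hS1 : S ≤ K := by
    rw [hS]; exact mul_le_of_le_one_right hK.le (pow_le_one₀ hu.le hu1)
  rw [← hB, ← hS] at ha hc
  have h1 : a ^ 2 + c ^ 2 ≤ 10 * B ^ 2 + 4 * K ^ 2 := by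
    have a1 := pow_le_pow_left₀ (abs_nonneg a) ha 2
    have a2 := pow_le_pow_left₀ (abs_nonneg c) hc 2
    have a3 := pow_le_pow_left₀ hS0.le hS1 2
    rw [sq_abs] at a1 a2
    nlinarith [sq_nonneg (2 * B - S), sq_nonneg (B - S)]
  have e1 : 2 * η * (40 * K ^ 2 * (s ^ 30 * (u ^ 10)⁻¹)) / u ^ 8 = 80 * η * B ^ 2 := by
    rw [hB]; field_simp; ring
  have e2 : 40 * K ^ 2 * (s ^ 30 * (u ^ 10)⁻¹) *
      (-(15 / 4 / s ^ 8) - (-(5 / 4) + (-(5 / 4)) ^ 2 * ζ) / u ^ 8) =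
      -(150 * (B ^ 2 * (u ^ 8 / s ^ 8))) + (50 - 125 / 2 * ζ) * B ^ 2 := by
    rw [hB]; field_simp; ring
  rw [e1, e2]
  have hB2 : 0 < B ^ 2 := by positivity
  have h2 : 49 * B ^ 2 ≤ (50 - 125 / 2 * ζ) * B ^ 2 - 80 * η * B ^ 2 := by nlinarith
  by_cases hc2 : 4 * u ^ 8 ≤ s ^ 8
  · have h3 : u ^ 8 / s ^ 8 ≤ 1 / 4 := by rw [div_le_iff₀ (by positivity)]; linarith
    have h4 := mul_le_mul_of_nonneg_left h3 hB2.le
    have : 0 < K ^ 2 := by positivity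
    linarith
  · have h5 : s ≤ 6 / 5 * u := by
      refine le_of_pow8 hu.le (by norm_num) ?_
      have : 0 < u ^ 8 := by positivity
      norm_num; linarith
    have h6 : s ^ 22 ≤ 100 * u ^ 10 := by
      refine (pow_le_pow_left₀ hs.le h5 22).trans ?_
      rw [mul_pow]
      exact mul_le_mul (by norm_num) (pow_le_pow_of_le_one hu.le hu1 (by norm_num))
        (by positivity) (by norm_num)
    have h7 : B ^ 2 * (u ^ 8 / s ^ 8) ≤ 100 * K ^ 2 := by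
      have : B ^ 2 * (u ^ 8 / s ^ 8) = s ^ 22 / u ^ 10 * K ^ 2 := by rw [hB]; field_simp
      rw [this]
      refine mul_le_mul_of_nonneg_right ?_ (by positivity)
      rw [div_le_iff₀ (by positivity)]; exact h6
    have : 0 < K ^ 2 := by positivity
    linarith

end

end Crest.Agent.N207.S.In
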