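import Crest.Agent.N207.S.Rg.FDefs
import Crest.Agent.N207.S.Rg.Seq

/-!
Row 207 (S0320), block FAR: the differentiated system away from the tip (proof).
-/

set_option autoImplicit false

open Set
open scoped ContDiff

namespace Crest.Agent.N207.S.Rg

noncomputable section

section gen
variable {X : Type} [NormedAddCommGroup X] [NormedSpace ℝ X]

theorem vchain_iter {g : ℕ → ℝ → X}
    (h : ∀ j x, x ∈ Icc (0 : ℝ) 1 → HasDerivWithinAt (g j) (g (j + 1) x) (Icc 0 1) x) :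
    ∀ j, ∀ x ∈ Icc (0 : ℝ) 1, Ex.jet j (g 0) x = g j x := by
  intro j
  induction j with
  | zero => intro x _; rfl
  | succ j ih =>
    intro x hx
    unfold Ex.jet at *
    rw [iteratedDerivWithin_succ, derivWithin_congr ih (ih x hx)]
    exact (h j x hx).derivWithin (uniqueDiffOn_Icc zero_lt_one x hx)

theorem vchain_jet {u : ℝ → X} (hu : ContDiffOn ℝ ∞ u (Icc 0 1)) (j : ℕ) {x : ℝ}
    (hx : x ∈ Icc (0 : ℝ) 1) : HasDerivWithinAt (Ex.jet j u) (Ex.jet (j + 1) u x) (Icc 0 1) x := by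
  have := (hu.differentiableOn_iteratedDerivWithin (m := j)
    (by exact_mod_cast (ENat.natCast_lt_top j)) (uniqueDiffOn_Icc zero_lt_one) x
    hx).hasDerivWithinAt
  rwa [← iteratedDerivWithin_succ] at this

theorem cd_jet1 {u : ℝ → X} (hu : ContDiffOn ℝ ∞ u (Icc 0 1)) :
    ContDiffOn ℝ ∞ (Ex.jet 1 u) (Icc 0 1) := by
  have := hu.derivWithin (uniqueDiffOn_Icc zero_lt_one) (m := ∞) le_rfl
  unfold Ex.jet
  rwa [iteratedDerivWithin_one]

theorem comp_bd {F : X → ℝ} {Ω K : Set X} (hΩ : IsOpen Ω) (hF : ContDiffOn ℝ ∞ F Ω)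
    (hK : IsCompact K) (hKΩ : K ⊆ Ω) (n : ℕ) (D : ℝ) : ∃ C : ℝ, 0 ≤ C ∧ ∀ G : ℝ → X,
      ContDiffOn ℝ ∞ G (Icc 0 1) → MapsTo G (Icc 0 1) Ω → ∀ x ∈ Icc (0 : ℝ) 1, G x ∈ K →
      (∀ l, 1 ≤ l → l ≤ n → ‖Ex.jet l G x‖ ≤ D) →
      ∀ l ≤ n, |Ex.jet l (fun y => F (G y)) x| ≤ C := by
  have h1 : ∀ i : ℕ, ∃ C : ℝ, ∀ z ∈ K, ‖iteratedFDerivWithin ℝ i F Ω z‖ ≤ C := fun i =>
    hK.exists_bound_of_continuousOn ((hF.continuousOn_iteratedFDerivWithin
      (by exact_mod_cast le_top) hΩ.uniqueDiffOn).mono hKΩ)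
  choose c hc using h1
  refine ⟨n.factorial * (∑ i ∈ Finset.range (n + 1), |c i|) * max D 1 ^ n, by positivity, ?_⟩
  intro G hG hm x hx hxK hD l hl
  have := norm_iteratedFDerivWithin_comp_le (n := l) hF hG (by exact_mod_cast le_top)
    hΩ.uniqueDiffOn (uniqueDiffOn_Icc zero_lt_one) hm hx
    (C := ∑ i ∈ Finset.range (n + 1), |c i|) (D := max D 1)
    (fun i hi => ((hc i _ hxK).trans (le_abs_self _)).trans
      (Finset.single_le_sum (f := fun i => |c i|) (fun _ _ => abs_nonneg _)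
        (Finset.mem_range.2 (by omega))))
    (fun i h1 h2 => by
      rw [norm_iteratedFDerivWithin_eq_norm_iteratedDerivWithin]
      exact ((hD i h1 (h2.trans hl)).trans (le_max_left _ _)).trans
        (le_self_pow₀ (le_max_right _ _) (by omega)))
  rw [norm_iteratedFDerivWithin_eq_norm_iteratedDerivWithin, Real.norm_eq_abs] at this
  refine this.trans ?_
  have a1 : (l.factorial : ℝ) ≤ n.factorial := by exact_mod_cast Nat.factorial_le hl
  have a2 : max D 1 ^ l ≤ max D 1 ^ n := pow_le_pow_right₀ (le_max_right _ _) hl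
  gcongr

end gen

theorem lmul_one0 {M M' : ℝ} {n : ℕ} {a b : ℕ → ℝ} (hM' : 0 ≤ M') (ha : ∀ i ≤ n, |a i| ≤ M)
    (hb : ∀ i < n, |b i| ≤ M') : |lmul a b n - a 0 * b n| ≤ 2 ^ n * (M * M') := by
  have hM : 0 ≤ M := (abs_nonneg _).trans (ha 0 n.zero_le)
  rcases Nat.eq_zero_or_pos n with rfl | hn
  · simp only [lmul_zero, sub_self, abs_zero]; positivity
  · have := (Top.mul (ρ := 1) zero_le_one hn (Top.of_le fun i hi => by simpa using ha i hi)
      (Top.of_low hM' fun i hi => by simpa using hb i hi)).top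
    simpa using this

theorem norm_E3 {v : Ga.E3} {M : ℝ} (h : ∀ i, |v i| ≤ M) : ‖v‖ ≤ 3 * M := by
  have hM : 0 ≤ M := (abs_nonneg _).trans (h 0)
  rw [EuclideanSpace.norm_eq]
  refine Real.sqrt_le_iff.2 ⟨by positivity, ?_⟩
  simp only [Fin.sum_univ_three, Real.norm_eq_abs]
  have a0 := pow_le_pow_left₀ (abs_nonneg _) (h 0) 2
  have a1 := pow_le_pow_left₀ (abs_nonneg _) (h 1) 2
  have a2 := pow_le_pow_left₀ (abs_nonneg _) (h 2) 2
  nlinarith

/-- jets of `μ` -/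
def muS (x : ℝ) (i : ℕ) : ℝ :=
  if i = 0 then Ex.mu x else if i = 1 then 1 - 2 * x else if i = 2 then -2 else 0

theorem chain_mu : Chain (Icc 0 1) fun j x => muS x j := by
  intro j x _
  unfold muS
  rcases j with _ | _ | _ | j
  · simpa using (Ex.hasDerivAt_mu x).hasDerivWithinAt
  · simpa using (((hasDerivAt_id' x).const_mul 2).const_sub 1).hasDerivWithinAt
  · simpa using hasDerivWithinAt_const x (Icc (0 : ℝ) 1) (-2 : ℝ)
  · simpa using hasDerivWithinAt_const x (Icc (0 : ℝ) 1) (0 : ℝ)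

theorem muS_le {x : ℝ} (hx : x ∈ Icc (0 : ℝ) 1) (i : ℕ) : |muS x i| ≤ 2 := by
  unfold muS
  split_ifs
  · rw [abs_of_nonneg (Ex.mu_nonneg hx)]; linarith [Ex.mu_le (x := x)]
  · exact abs_le.2 ⟨by linarith [hx.2], by linarith [hx.1]⟩
  · norm_num
  · norm_num

variable (S : Ex.Sys Ga.E3)

/-- the part of the derivative of `Ψ` without second derivatives -/
def psA (i : Fin 3) (z : (ℝ × Ga.E3) × Ga.E3) : ℝ := fderiv ℝ S.Psi z ((1, z.2), 0) i

/-- the coefficient of the second derivatives -/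
def psB (i m : Fin 3) (z : (ℝ × Ga.E3) × Ga.E3) : ℝ :=
  fderiv ℝ S.Psi z (0, EuclideanSpace.single m 1) i

def psH (i m : Fin 3) (z : (ℝ × Ga.E3) × Ga.E3) : ℝ :=
  psB S i m z + (if i = m then 1 else 0) * (S.a z.1 * S.b)

theorem om_open : IsOpen (S.Om ×ˢ (univ : Set Ga.E3)) := S.isOpen.prod isOpen_univ

theorem cd_fd : ContDiffOn ℝ ∞ (fderiv ℝ S.Psi) (S.Om ×ˢ univ) :=
  S.hPsi.fderiv_of_isOpen (om_open S) le_rfl

theorem cd_psA (i : Fin 3) : ContDiffOn ℝ ∞ (psA S i) (S.Om ×ˢ univ) :=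
  (EuclideanSpace.proj i : Ga.E3 →L[ℝ] ℝ).contDiff.comp_contDiffOn
    ((cd_fd S).clm_apply (by fun_prop))

theorem cd_psB (i m : Fin 3) : ContDiffOn ℝ ∞ (psB S i m) (S.Om ×ˢ univ) :=
  (EuclideanSpace.proj i : Ga.E3 →L[ℝ] ℝ).contDiff.comp_contDiffOn
    ((cd_fd S).clm_apply contDiffOn_const)

theorem cd_psH (i m : Fin 3) : ContDiffOn ℝ ∞ (psH S i m) (S.Om ×ˢ univ) :=
  (cd_psB S i m).add (contDiffOn_const.mul
    ((S.ha.comp contDiffOn_fst fun _ hz => hz.1).mul contDiffOn_const))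

theorem psi_at {z : (ℝ × Ga.E3) × Ga.E3} (hz : z.1 ∈ S.Om) :
    HasFDerivAt S.Psi (fderiv ℝ S.Psi z) z :=
  ((S.hPsi.differentiableOn (by simp)).differentiableAt
    ((om_open S).mem_nhds ⟨hz, trivial⟩)).hasFDerivAt

theorem psH_one (i m : Fin 3) {u p : Ga.E3} (h : ((1 : ℝ), u) ∈ S.Om) :
    psH S i m ((1, u), p) = 0 := by
  have h1 : HasDerivAt (fun s : ℝ => ((((1 : ℝ), u), p + s • EuclideanSpace.single m (1 : ℝ)) :
      (ℝ × Ga.E3) × Ga.E3)) (0, EuclideanSpace.single m 1) 0 := by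
    refine (hasDerivAt_const _ _).prodMk ?_
    simpa using ((hasDerivAt_id (0 : ℝ)).smul_const (EuclideanSpace.single m (1 : ℝ))).const_add p
  have h2 := (psi_at S (z := ((1, u), p + (0 : ℝ) • EuclideanSpace.single m (1 : ℝ)))
    h).comp_hasDerivAt (0 : ℝ) h1
  have h3 : HasDerivAt (fun s : ℝ => S.Psi ((1, u), 0) -
      (S.a (1, u) * S.b) • (p + s • EuclideanSpace.single m (1 : ℝ)))
      (-((S.a (1, u) * S.b) • EuclideanSpace.single m (1 : ℝ))) 0 := by
    simpa using ((((hasDerivAt_id (0 : ℝ)).smul_const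
      (EuclideanSpace.single m (1 : ℝ))).const_add p).const_smul (S.a (1, u) * S.b)).const_sub
        (S.Psi ((1, u), 0))
  have h4 := h2.unique (h3.congr_of_eventuallyEq
    (Filter.Eventually.of_forall fun s => S.pole1 u _ h))
  simp only [zero_smul, add_zero] at h4
  simp only [psH, psB, h4]
  by_cases him : i = m <;> simp [him]

theorem psH_bd {K0 : Set (ℝ × Ga.E3)} (hK : IsCompact K0) (hKΩ : K0 ⊆ S.Om)
    (hs : ∀ x u, (x, u) ∈ K0 → 2 / 3 ≤ x → ∀ y ∈ Icc x 1, (y, u) ∈ K0) {xs : ℝ} (hxs : 0 < xs)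
    (D : ℝ) (i m : Fin 3) : ∃ L : ℝ, 0 ≤ L ∧ ∀ x u p, (x, u) ∈ K0 → x ∈ Icc xs 1 → ‖p‖ ≤ D →
      |psH S i m ((x, u), p)| ≤ L * Ex.mu x := by
  have hK1 : IsCompact (K0 ×ˢ Metric.closedBall (0 : Ga.E3) D) :=
    hK.prod (isCompact_closedBall _ _)
  have hsub : K0 ×ˢ Metric.closedBall (0 : Ga.E3) D ⊆ S.Om ×ˢ univ :=
    fun z hz => ⟨hKΩ hz.1, trivial⟩
  obtain ⟨c0, h0⟩ := hK1.exists_bound_of_continuousOn ((cd_psH S i m).continuousOn.mono hsub)
  obtain ⟨c1, h1⟩ := hK1.exists_bound_of_continuousOn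
    ((((cd_psH S i m).fderiv_of_isOpen (m := ∞) (om_open S) le_rfl).continuousOn.clm_apply
      (continuousOn_const (c := (((1 : ℝ), (0 : Ga.E3)), (0 : Ga.E3))))).mono hsub)
  refine ⟨(3 * |c0| + |c1|) / xs, by positivity, fun x u p hx hx1 hp => ?_⟩
  have hp' : p ∈ Metric.closedBall (0 : Ga.E3) D := by simpa using hp
  have hb : |psH S i m ((x, u), p)| ≤ (3 * |c0| + |c1|) * (1 - x) := by
    rcases le_total x (2 / 3) with h | h
    · have := (h0 ((x, u), p) ⟨hx, hp'⟩).trans (le_abs_self _)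
      rw [Real.norm_eq_abs] at this
      nlinarith [abs_nonneg c0, abs_nonneg c1]
    · have h2 := Convex.norm_image_sub_le_of_norm_hasDerivWithin_le
        (f := fun y => psH S i m ((y, u), p))
        (f' := fun y => fderiv ℝ (psH S i m) ((y, u), p) ((1, 0), 0)) (C := |c1|) (s := Icc x 1)
        (fun y hy => by
          have a1 : HasFDerivAt (psH S i m) (fderiv ℝ (psH S i m) ((y, u), p)) ((y, u), p) :=
            (((cd_psH S i m).differentiableOn (by simp)).differentiableAt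
              ((om_open S).mem_nhds ⟨hKΩ (hs x u hx h y hy), trivial⟩)).hasFDerivAt
          have a2 : HasDerivAt (fun y : ℝ => (((y, u), p) : (ℝ × Ga.E3) × Ga.E3)) ((1, 0), 0) y :=
            ((hasDerivAt_id y).prodMk (hasDerivAt_const _ _)).prodMk (hasDerivAt_const _ _)
          exact (a1.comp_hasDerivAt y a2).hasDerivWithinAt)
        (fun y hy => (h1 ((y, u), p) ⟨hs x u hx h y hy, hp'⟩).trans (le_abs_self _))
        (convex_Icc _ _) ⟨hx1.2, le_rfl⟩ ⟨le_rfl, hx1.2⟩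
      simp only [psH_one S i m (hKΩ (hs x u hx h 1 ⟨hx1.2, le_rfl⟩)), sub_zero,
        Real.norm_eq_abs] at h2
      rw [abs_of_nonpos (by linarith [hx1.2] : x - 1 ≤ 0)] at h2
      nlinarith [abs_nonneg c0, abs_nonneg c1, hx1.2]
  refine hb.trans ?_
  rw [Ex.mu, ← mul_assoc]
  refine mul_le_mul_of_nonneg_right ?_ (by linarith [hx1.2])
  rw [div_mul_eq_mul_div, le_div_iff₀ hxs]
  exact mul_le_mul_of_nonneg_left hx1.1 (by positivity)

variable {S}

theorem jet_G0 {u : ℝ → Ga.E3} (hu : ContDiffOn ℝ ∞ u (Icc 0 1)) (l : ℕ) {x : ℝ}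
    (hx : x ∈ Icc (0 : ℝ) 1) :
    Ex.jet l (fun y => ((y, u y) : ℝ × Ga.E3)) x = (idS x l, Ex.jet l u x) :=
  vchain_iter (g := fun l y => ((idS y l, Ex.jet l u y) : ℝ × Ga.E3))
    (fun j x hx => (chain_id j x hx).prodMk (vchain_jet hu j hx)) l x hx

theorem jet_G {u : ℝ → Ga.E3} (hu : ContDiffOn ℝ ∞ u (Icc 0 1)) (l : ℕ) {x : ℝ}
    (hx : x ∈ Icc (0 : ℝ) 1) :
    Ex.jet l (fun y => (((y, u y), Ex.jet 1 u y) : (ℝ × Ga.E3) × Ga.E3)) x =
      ((idS x l, Ex.jet l u x), Ex.jet (l + 1) u x) :=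
  vchain_iter (g := fun l y => (((idS y l, Ex.jet l u y), Ex.jet (l + 1) u y) :
    (ℝ × Ga.E3) × Ga.E3)) (fun j x hx => ((chain_id j x hx).prodMk (vchain_jet hu j hx)).prodMk
      (vchain_jet hu (j + 1) hx)) l x hx

theorem idS_le {x : ℝ} {l : ℕ} (hl : 1 ≤ l) : |idS x l| ≤ 1 := by
  unfold idS; split_ifs <;> first | omega | simp

/-- the jets of `Ψ ∘ G`. -/
theorem psi_jet {u : ℝ → Ga.E3} (hu : ContDiffOn ℝ ∞ u (Icc 0 1))
    (hm : ∀ y ∈ Icc (0 : ℝ) 1, (y, u y) ∈ S.Om) (i : Fin 3) (n : ℕ) {x : ℝ}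
    (hx : x ∈ Icc (0 : ℝ) 1) :
    Ex.jet (n + 1) (fun y => S.Psi ((y, u y), Ex.jet 1 u y) i) x =
      Ex.jet n (fun y => psA S i ((y, u y), Ex.jet 1 u y)) x +
      ∑ m, lmul (fun l => Ex.jet l (fun y => psB S i m ((y, u y), Ex.jet 1 u y)) x)
        (fun l => Ex.jet (l + 2) (fun y => u y m) x) n := by
  have hI := uniqueDiffOn_Icc (zero_lt_one (α := ℝ))
  have hG : ContDiffOn ℝ ∞ (fun y => (((y, u y), Ex.jet 1 u y) : (ℝ × Ga.E3) × Ga.E3))
      (Icc 0 1) := (contDiffOn_id.prodMk hu).prodMk (cd_jet1 hu)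
  have hM : MapsTo (fun y => (((y, u y), Ex.jet 1 u y) : (ℝ × Ga.E3) × Ga.E3)) (Icc 0 1)
      (S.Om ×ˢ univ) := fun y hy => ⟨hm y hy, trivial⟩
  have c1 := chain_of_contDiffOn hI
    ((EuclideanSpace.proj i : Ga.E3 →L[ℝ] ℝ).contDiff.comp_contDiffOn (S.hPsi.comp hG hM))
  have c2 := chain_of_contDiffOn hI ((cd_psA S i).comp hG hM)
  have c3 := fun m => (chain_of_contDiffOn hI ((cd_psB S i m).comp hG hM)).mul
    (chain_of_contDiffOn hI
      ((EuclideanSpace.proj m : Ga.E3 →L[ℝ] ℝ).contDiff.comp_contDiffOn hu)).shift.shift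
  have := c1.shift.unique hI (c2.add (((c3 0).add (c3 1)).add (c3 2))) (fun y hy => by
    have a1 : HasDerivWithinAt (fun y => (((y, u y), Ex.jet 1 u y) : (ℝ × Ga.E3) × Ga.E3))
        ((1, Ex.jet 1 u y), Ex.jet 2 u y) (Icc 0 1) y :=
      ((hasDerivWithinAt_id _ _).prodMk (vchain_jet hu 0 hy)).prodMk (vchain_jet hu 1 hy)
    have a2 := (EuclideanSpace.proj i : Ga.E3 →L[ℝ] ℝ).hasFDerivAt.comp_hasDerivWithinAt y
      ((psi_at S (z := ((y, u y), Ex.jet 1 u y)) (hm y hy)).comp_hasDerivWithinAt y a1)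
    refine ((hI y hy).eq_deriv _ (c1 0 y hy) a2).trans ?_
    have a3 : (((1, Ex.jet 1 u y), Ex.jet 2 u y) : (ℝ × Ga.E3) × Ga.E3) =
        ((1, Ex.jet 1 u y), 0) + (Ex.jet 2 u y 0 • (0, EuclideanSpace.single 0 1) +
          Ex.jet 2 u y 1 • (0, EuclideanSpace.single 1 1) +
          Ex.jet 2 u y 2 • (0, EuclideanSpace.single 2 1)) := by
      refine Prod.ext (by simp) ?_
      ext k
      fin_cases k <;> simp
    rw [a3]
    simp only [map_add, map_smul, smul_eq_mul, lmul_zero, Ga.jet_apply hu 2 hy]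
    change _ = psA S i ((y, u y), Ex.jet 1 u y) +
      (psB S i 0 ((y, u y), Ex.jet 1 u y) * Ex.jet 2 (fun y => u y 0) y +
        psB S i 1 ((y, u y), Ex.jet 1 u y) * Ex.jet 2 (fun y => u y 1) y +
        psB S i 2 ((y, u y), Ex.jet 1 u y) * Ex.jet 2 (fun y => u y 2) y)
    simp only [psA, psB, mul_comm (Ex.jet 2 _ y)]
    rfl) n x hx
  rw [Fin.sum_univ_three]
  exact this

theorem far : FarStmt := by
  intro S K0 hK hKΩ hs xs M j hxs
  have hI := uniqueDiffOn_Icc (zero_lt_one (α := ℝ))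
  obtain ⟨D, hD⟩ : ∃ D, D = 3 * |M| + 1 := ⟨_, rfl⟩
  have hD1 : 1 ≤ D := by rw [hD]; linarith [abs_nonneg M]
  have hK1 : IsCompact (K0 ×ˢ Metric.closedBall (0 : Ga.E3) D) :=
    hK.prod (isCompact_closedBall _ _)
  have hsub : K0 ×ˢ Metric.closedBall (0 : Ga.E3) D ⊆ S.Om ×ˢ univ :=
    fun z hz => ⟨hKΩ hz.1, trivial⟩
  obtain ⟨ca, hca0, hca⟩ := comp_bd S.isOpen S.ha hK hKΩ (max j 1) D
  obtain ⟨ci, hci⟩ := hK.exists_bound_of_continuousOn
    ((S.ha.continuousOn.mono hKΩ).inv₀ fun z hz => (S.apos z (hKΩ hz)).ne')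
  obtain ⟨c0, hc0⟩ := hK1.exists_bound_of_continuousOn (S.hPsi.continuousOn.mono hsub)
  choose cA hcA0 hcA using fun i => comp_bd (om_open S) (cd_psA S i) hK1 hsub (j - 1) D
  choose cB hcB0 hcB using fun i m => comp_bd (om_open S) (cd_psB S i m) hK1 hsub (j - 1) D
  choose L hL0 hL using fun i m => psH_bd S hK hKΩ hs hxs D i m
  obtain ⟨A, hA⟩ : ∃ A, A = ∑ i, (cA i + ∑ m, (2 ^ j * (cB i m * |M|) + L i m)) := ⟨_, rfl⟩
  have hAi : ∀ i, cA i + ∑ m, (2 ^ j * (cB i m * |M|) + L i m) ≤ A := fun i => by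
    rw [hA]
    exact Finset.single_le_sum (f := fun i => cA i + ∑ m, (2 ^ j * (cB i m * |M|) + L i m))
      (fun i _ => add_nonneg (hcA0 i) (Finset.sum_nonneg fun m _ => by
        have := hcB0 i m
        have := hL0 i m
        positivity)) (Finset.mem_univ i)
  have hA0 : 0 ≤ A := le_trans (add_nonneg (hcA0 0) (Finset.sum_nonneg fun m _ => by
    have := hcB0 0 m
    have := hL0 0 m
    positivity)) (hAi 0)
  obtain ⟨R, hR⟩ : ∃ R, R = 2 ^ j * (2 ^ j * (ca * 2) * |M|) + |c0| + ca * S.b * |M| := ⟨_, rfl⟩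
  have hR0 : 0 ≤ R := by rw [hR]; positivity
  refine ⟨1 + |ci| + ca + j * ca + A + R, by
    have : 0 ≤ (j : ℝ) * ca := by positivity
    linarith [abs_nonneg ci], ?_⟩
  intro t0 t1 U hU t ht x hx hxK hM
  have hu := Ga.sol_slice hU ht
  have hx' : x ∈ Icc (0 : ℝ) 1 := ⟨hxs.le.trans hx.1, hx.2⟩
  have hm := hU.mem t ht
  have hjc : 0 ≤ (j : ℝ) * ca := by positivity
  have hn : ∀ l ≤ max j 1, ‖Ex.jet l (U t) x‖ ≤ D := fun l hl =>
    (norm_E3 (M := |M|) fun i => by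
      rw [Ga.sol_jet hU l ht hx']; exact (hM i l hl).trans (le_abs_self _)).trans (by linarith)
  have ha := hca (fun y => (y, U t y)) (contDiffOn_id.prodMk hu) hm x hx' hxK fun l h1 h2 => by
    rw [jet_G0 hu l hx', Prod.norm_mk]
    exact max_le ((idS_le h1).trans hD1) (hn l h2)
  have hp : ‖Ex.jet 1 (U t) x‖ ≤ D := hn 1 (le_max_right _ _)
  have hGK : (((x, U t x), Ex.jet 1 (U t) x) : (ℝ × Ga.E3) × Ga.E3) ∈
      K0 ×ˢ Metric.closedBall (0 : Ga.E3) D := ⟨hxK, by simpa using hp⟩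
  have apos := S.apos _ (hKΩ hxK)
  have ha0 : S.a (x, U t x) ≤ ca := (le_abs_self _).trans (ha 0 (Nat.zero_le _))
  refine ⟨?_, by linarith [abs_nonneg ci], fun i => ?_⟩
  · have h1 := ((le_abs_self _).trans (hci _ hxK)).trans (le_abs_self ci)
    simp only [Pi.inv_apply] at h1
    have h2 := mul_le_mul_of_nonneg_right h1 apos.le
    rw [inv_mul_cancel₀ apos.ne'] at h2
    nlinarith
  have hmu := Ex.mu_nonneg hx'
  have hui := chain_of_contDiffOn hI
    ((EuclideanSpace.proj i : Ga.E3 →L[ℝ] ℝ).contDiff.comp_contDiffOn hu)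
  have hG : ContDiffOn ℝ ∞ (fun y => (((y, U t y), Ex.jet 1 (U t) y) : (ℝ × Ga.E3) × Ga.E3))
      (Icc 0 1) := (contDiffOn_id.prodMk hu).prodMk (cd_jet1 hu)
  have hMp : MapsTo (fun y => (((y, U t y), Ex.jet 1 (U t) y) : (ℝ × Ga.E3) × Ga.E3)) (Icc 0 1)
      (S.Om ×ˢ univ) := fun y hy => ⟨hm y hy, trivial⟩
  have c1 := chain_of_contDiffOn hI
    ((EuclideanSpace.proj i : Ga.E3 →L[ℝ] ℝ).contDiff.comp_contDiffOn (S.hPsi.comp hG hMp))
  have c2 := chain_of_contDiffOn hI (S.ha.comp (contDiffOn_id.prodMk hu) hm)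
  have c3 := ((c2.mul chain_mu).mul hui.shift.shift).add c1
  have e1 : Ga.ct S U i j t x =
      lmul (fun l => lmul (fun r => Ex.jet r (fun y => S.a (y, U t y)) x) (fun r => muS x r) l)
        (fun l => Ga.cj U i (l + 2) t x) j +
      Ex.jet j (fun y => S.Psi ((y, U t y), Ex.jet 1 (U t) y) i) x := by
    refine Eq.trans ?_ (c3.iter hI j x hx')
    refine iteratedDerivWithin_congr (fun y hy => ?_) hx'
    simp only [lmul_zero, Ex.Sys.F, PiLp.add_apply, PiLp.smul_apply, smul_eq_mul,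
      Ga.jet_apply hu 2 hy]
    rfl
  have e2 := lmul_two0 (ρ := 1) (M := 2 ^ j * (ca * 2)) (M' := |M|) (n := j)
    (a := fun l => lmul (fun r => Ex.jet r (fun y => S.a (y, U t y)) x) (fun r => muS x r) l)
    (b := fun l => Ga.cj U i (l + 2) t x) zero_le_one (abs_nonneg _)
    (Top.of_le fun l hl => by
      refine (lmul_bd (M := ca) (M' := 2) zero_le_one (fun r hr => ?_) (fun r _ => ?_)).trans ?_
      · simpa using ha r (by omega)
      · simpa using muS_le hx' r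
      · exact mul_le_mul_of_nonneg_right (pow_le_pow_right₀ (by norm_num) hl) (by positivity))
    (fun l hl => by simpa using (hM i (l + 2) (by omega)).trans (le_abs_self _))
  simp only [one_pow, mul_one, lmul_zero, lmul_one] at e2
  have ha1 := ha 1 (le_max_right _ _)
  have s0 := abs_nonneg (Ga.cj U 0 (j + 1) t x)
  have s1 := abs_nonneg (Ga.cj U 1 (j + 1) t x)
  have s2 := abs_nonneg (Ga.cj U 2 (j + 1) t x)
  have hsum : ∀ m, |Ga.cj U m (j + 1) t x| ≤
      |Ga.cj U 0 (j + 1) t x| + |Ga.cj U 1 (j + 1) t x| + |Ga.cj U 2 (j + 1) t x| := by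
    intro m; fin_cases m <;> simp <;> linarith
  generalize |Ga.cj U 0 (j + 1) t x| + |Ga.cj U 1 (j + 1) t x| + |Ga.cj U 2 (j + 1) t x| = Sg
    at hsum ⊢
  have hSg : 0 ≤ Sg := (abs_nonneg _).trans (hsum 0)
  have hmS : 0 ≤ Ex.mu x * Sg := by positivity
  -- the `Ψ` part
  have e3 : |Ex.jet j (fun y => S.Psi ((y, U t y), Ex.jet 1 (U t) y) i) x +
      S.a (x, U t x) * S.b * Ga.cj U i (j + 1) t x| ≤
      |c0| + ca * S.b * |M| + A * (1 + Ex.mu x * Sg) := by
    rcases j with _ | n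
    · have b1 : |S.Psi ((x, U t x), Ex.jet 1 (U t) x) i| ≤ |c0| :=
        ((PiLp.norm_apply_le _ i).trans (hc0 _ hGK)).trans (le_abs_self _)
      have b2 : |S.a (x, U t x) * S.b * Ga.cj U i (0 + 1) t x| ≤ ca * S.b * |M| := by
        rw [abs_mul, abs_of_nonneg (by positivity)]
        exact mul_le_mul (mul_le_mul_of_nonneg_right ha0 (by positivity))
          ((hM i 1 (le_max_right _ _)).trans (le_abs_self _)) (abs_nonneg _) (by positivity)
      refine (abs_add_le _ _).trans ?_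
      have : 0 ≤ A * (1 + Ex.mu x * Sg) := by positivity
      change |S.Psi ((x, U t x), Ex.jet 1 (U t) x) i| + _ ≤ _
      linarith
    · have hGj : ∀ l, 1 ≤ l → l ≤ n + 1 - 1 → ‖Ex.jet l (fun y =>
          (((y, U t y), Ex.jet 1 (U t) y) : (ℝ × Ga.E3) × Ga.E3)) x‖ ≤ D := fun l h1 h2 => by
        rw [jet_G hu l hx', Prod.norm_mk, Prod.norm_mk]
        exact max_le (max_le ((idS_le h1).trans hD1) (hn l (by omega))) (hn _ (by omega))
      have b1 := hcA i _ hG hMp x hx' hGK hGj n (by omega)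
      have b2 : ∀ m, |lmul (fun l => Ex.jet l (fun y => psB S i m ((y, U t y), Ex.jet 1 (U t) y)) x)
          (fun l => Ex.jet (l + 2) (fun y => U t y m) x) n +
          (if i = m then 1 else 0) * (S.a (x, U t x) * S.b) * Ga.cj U m (n + 1 + 1) t x| ≤
          (2 ^ (n + 1) * (cB i m * |M|) + L i m) * (1 + Ex.mu x * Sg) := by
        intro m
        have d1 := lmul_one0 (M' := |M|) (n := n)
          (b := fun l => Ex.jet (l + 2) (fun y => U t y m) x) (abs_nonneg _)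
          (fun l hl => hcB i m _ hG hMp x hx' hGK hGj l (by omega))
          (fun l hl => (hM m (l + 2) (by omega)).trans (le_abs_self _))
        have d2 : |psH S i m ((x, U t x), Ex.jet 1 (U t) x) * Ga.cj U m (n + 1 + 1) t x| ≤
            L i m * Ex.mu x * Sg := by
          rw [abs_mul]
          exact mul_le_mul (hL i m x _ _ hxK hx hp) (hsum m) (abs_nonneg _)
            (mul_nonneg (hL0 i m) hmu)
        have d3 : 0 ≤ 2 ^ n * (cB i m * |M|) := by have := hcB0 i m; positivity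
        have d4 := mul_nonneg d3 hmS
        have d5 := hL0 i m
        change |_ - psB S i m ((x, U t x), Ex.jet 1 (U t) x) * Ga.cj U m (n + 1 + 1) t x| ≤ _ at d1
        simp only [psH] at d2
        have d1' := abs_le.1 d1
        have d2' := abs_le.1 d2
        rw [pow_succ]
        exact abs_le.2 ⟨by linarith [d1'.1, d2'.1], by linarith [d1'.2, d2'.2]⟩
      rw [psi_jet hu hm i n hx']
      have b3 : S.a (x, U t x) * S.b * Ga.cj U i (n + 1 + 1) t x = ∑ m,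
          (if i = m then 1 else 0) * (S.a (x, U t x) * S.b) * Ga.cj U m (n + 1 + 1) t x := by
        simp
      rw [b3, add_assoc, ← Finset.sum_add_distrib]
      refine (abs_add_le _ _).trans ?_
      have b4 := (Finset.abs_sum_le_sum_abs _ Finset.univ).trans
        (Finset.sum_le_sum fun m _ => b2 m)
      rw [← Finset.sum_mul] at b4
      have b5 := mul_le_mul_of_nonneg_right (hAi i) (by positivity : 0 ≤ 1 + Ex.mu x * Sg)
      have b6 := mul_nonneg (hcA0 i) hmS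
      have : 0 ≤ ca * S.b * |M| := by positivity
      linarith [abs_nonneg c0]
  have e4 : |(j : ℝ) * (Ex.jet 1 (fun y => S.a (y, U t y)) x * Ex.mu x * Ga.cj U i (j + 1) t x)| ≤
      j * ca * (Ex.mu x * Sg) := by
    rw [abs_mul, abs_mul, abs_mul, abs_of_nonneg hmu, Nat.abs_cast, mul_assoc, mul_assoc]
    exact mul_le_mul_of_nonneg_left (mul_le_mul ha1 (mul_le_mul_of_nonneg_left (hsum i) hmu)
      (by positivity) hca0) (by positivity)
  have e5 : (j : ℝ) * Ga.cj U i (j - 1 + 2) t x = j * Ga.cj U i (j + 1) t x := by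
    rcases j with _ | n
    · simp
    · rfl
  have e6 : (j : ℝ) * ((Ex.jet 0 (fun y => S.a (y, U t y)) x * muS x 1 +
      Ex.jet 1 (fun y => S.a (y, U t y)) x * muS x 0) * Ga.cj U i (j - 1 + 2) t x) =
      S.a (x, U t x) * (j * (1 - 2 * x)) * Ga.cj U i (j + 1) t x +
        j * (Ex.jet 1 (fun y => S.a (y, U t y)) x * Ex.mu x * Ga.cj U i (j + 1) t x) := by
    rw [mul_left_comm, e5]
    change (S.a (x, U t x) * (1 - 2 * x) + _ * Ex.mu x) * _ = _
    ring
  rw [e6] at e2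
  change |_ - (S.a (x, U t x) * Ex.mu x * _ + _)| ≤ _ at e2
  rw [e1]
  have f2 := abs_le.1 e2
  have f3 := abs_le.1 e3
  have f4 := abs_le.1 e4
  have g1 := mul_nonneg (abs_nonneg ci) hmS
  have g2 := mul_nonneg hca0 hmS
  have g3 := mul_nonneg hR0 hmS
  exact abs_le.2 ⟨by linarith [f2.1, f3.1, f4.1, abs_nonneg ci],
    by linarith [f2.2, f3.2, f4.2, abs_nonneg ci]⟩

end

end Crest.Agent.N207.S.Rg
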