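import Crest.Agent.N207.S.In.Defs
import Crest.Agent.N207.S.MP

/-!
Row 207 (S0320): functions with first time and two space derivatives on a rectangle, polynomial
expressions in the jets, and the touching lemma.
-/

set_option autoImplicit false

open Set

namespace Crest.Agent.N207.S.In

noncomputable section

/-- A function with its `t`, `x`, `xx` derivatives on `[t0,t1] × [0,xs]`. -/
structure Pk (t0 t1 xs : ℝ) (f ft fx fxx : ℝ → ℝ → ℝ) : Prop where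
  cont : ContinuousOn (fun p : ℝ × ℝ => f p.1 p.2) (Icc t0 t1 ×ˢ Icc 0 xs)
  dt : ∀ t x, t ∈ Icc t0 t1 → x ∈ Icc 0 xs →
    HasDerivWithinAt (fun s => f s x) (ft t x) (Icc t0 t1) t
  dx : ∀ t x, t ∈ Icc t0 t1 → x ∈ Icc 0 xs → HasDerivWithinAt (f t) (fx t x) (Icc 0 xs) x
  dxx : ∀ t x, t ∈ Icc t0 t1 → x ∈ Icc 0 xs → HasDerivWithinAt (fx t) (fxx t x) (Icc 0 xs) x

variable {t0 t1 xs : ℝ} {f ft fx fxx g gt gx gxx : ℝ → ℝ → ℝ}

theorem Pk.sub (hf : Pk t0 t1 xs f ft fx fxx) (hg : Pk t0 t1 xs g gt gx gxx) :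
    Pk t0 t1 xs (fun t x => f t x - g t x) (fun t x => ft t x - gt t x)
      (fun t x => fx t x - gx t x) (fun t x => fxx t x - gxx t x) where
  cont := hf.cont.sub hg.cont
  dt t x ht hx := (hf.dt t x ht hx).sub (hg.dt t x ht hx)
  dx t x ht hx := (hf.dx t x ht hx).sub (hg.dx t x ht hx)
  dxx t x ht hx := (hf.dxx t x ht hx).sub (hg.dxx t x ht hx)

theorem Pk.add (hf : Pk t0 t1 xs f ft fx fxx) (hg : Pk t0 t1 xs g gt gx gxx) :
    Pk t0 t1 xs (fun t x => f t x + g t x) (fun t x => ft t x + gt t x)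
      (fun t x => fx t x + gx t x) (fun t x => fxx t x + gxx t x) where
  cont := hf.cont.add hg.cont
  dt t x ht hx := (hf.dt t x ht hx).add (hg.dt t x ht hx)
  dx t x ht hx := (hf.dx t x ht hx).add (hg.dx t x ht hx)
  dxx t x ht hx := (hf.dxx t x ht hx).add (hg.dxx t x ht hx)

theorem Pk.cmul (c : ℝ) (hf : Pk t0 t1 xs f ft fx fxx) :
    Pk t0 t1 xs (fun t x => c * f t x) (fun t x => c * ft t x)
      (fun t x => c * fx t x) (fun t x => c * fxx t x) where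
  cont := continuousOn_const.mul hf.cont
  dt t x ht hx := (hf.dt t x ht hx).const_mul c
  dx t x ht hx := (hf.dx t x ht hx).const_mul c
  dxx t x ht hx := (hf.dxx t x ht hx).const_mul c

/-- Product with a function of time. -/
theorem Pk.tmul {a a' : ℝ → ℝ} (ha : ∀ t ∈ Icc t0 t1, HasDerivAt a (a' t) t)
    (hf : Pk t0 t1 xs f ft fx fxx) :
    Pk t0 t1 xs (fun t x => a t * f t x) (fun t x => a' t * f t x + a t * ft t x)
      (fun t x => a t * fx t x) (fun t x => a t * fxx t x) where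
  cont := by
    refine ContinuousOn.mul (fun p hp => ?_) hf.cont
    exact ((ha p.1 hp.1).continuousAt.comp continuous_fst.continuousAt).continuousWithinAt
  dt t x ht hx := (ha t ht).hasDerivWithinAt.mul (hf.dt t x ht hx)
  dx t x ht hx := (hf.dx t x ht hx).const_mul _
  dxx t x ht hx := (hf.dxx t x ht hx).const_mul _

/-- A function of time alone. -/
theorem Pk.time {a a' : ℝ → ℝ} (ha : ∀ t ∈ Icc t0 t1, HasDerivAt a (a' t) t) :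
    Pk t0 t1 xs (fun t _ => a t) (fun t _ => a' t) (fun _ _ => 0) (fun _ _ => 0) where
  cont := fun p hp =>
    ((ha p.1 hp.1).continuousAt.comp continuous_fst.continuousAt).continuousWithinAt
  dt t _ ht _ := (ha t ht).hasDerivWithinAt
  dx _ _ _ _ := hasDerivWithinAt_const _ _ _
  dxx _ _ _ _ := hasDerivWithinAt_const _ _ _

/-- Real powers of a positive function. -/
theorem Pk.rpow (γ : ℝ) (hf : Pk t0 t1 xs f ft fx fxx)
    (hp : ∀ t x, t ∈ Icc t0 t1 → x ∈ Icc 0 xs → 0 < f t x) :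
    Pk t0 t1 xs (fun t x => f t x ^ γ) (fun t x => γ * f t x ^ γ / f t x * ft t x)
      (fun t x => γ * f t x ^ γ / f t x * fx t x)
      (fun t x => γ * f t x ^ γ / f t x * fxx t x +
        γ * (γ - 1) * f t x ^ γ / f t x ^ 2 * fx t x ^ 2) := by
  have hdx : ∀ t x, t ∈ Icc t0 t1 → x ∈ Icc 0 xs →
      HasDerivWithinAt (fun y => f t y ^ γ) (γ * f t x ^ γ / f t x * fx t x) (Icc 0 xs) x := by
    intro t x ht hx
    have h := (hf.dx t x ht hx).rpow_const (p := γ) (Or.inl (hp t x ht hx).ne')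
    convert h using 1
    rw [Real.rpow_sub_one (hp t x ht hx).ne']; ring
  refine ⟨hf.cont.rpow_const fun p h => Or.inl (hp p.1 p.2 h.1 h.2).ne', fun t x ht hx => ?_,
    hdx, fun t x ht hx => ?_⟩
  · have h := (hf.dt t x ht hx).rpow_const (p := γ) (Or.inl (hp t x ht hx).ne')
    convert h using 1
    rw [Real.rpow_sub_one (hp t x ht hx).ne']; ring
  · have h := ((((hdx t x ht hx).const_mul γ).div (hf.dx t x ht hx) (hp t x ht hx).ne').mul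
      (hf.dxx t x ht hx))
    have := (hp t x ht hx).ne'
    refine HasDerivWithinAt.congr_deriv h ?_
    simp only [Pi.div_apply]
    field_simp
    ring

/-- At a first touching point which is not on the right boundary, `f_t - Z f_xx - β f_x ≥ 0`. -/
theorem Pk.touch (hf : Pk t0 t1 xs f ft fx fxx) {r : ℝ → ℝ} (hr : ContinuousOn r (Icc t0 t1))
    (hrs : ∀ s ∈ Icc t0 t1, r s ≤ xs) {t x Z β : ℝ} (h0 : t0 < t) (h1 : t ≤ t1) (hx0 : 0 ≤ x)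
    (hx1 : x < r t) (hz : f t x = 0)
    (hp : ∀ s y, t0 ≤ s → s ≤ t → 0 ≤ y → y ≤ r s → f s y ≤ 0)
    (hZ : 0 ≤ Z) (hZ0 : x = 0 → Z = 0) (hβ : 0 ≤ β) :
    0 ≤ ft t x - Z * fxx t x - β * fx t x := by
  have hm : t ∈ Icc t0 t1 := ⟨h0.le, h1⟩
  have hxs : x < xs := hx1.trans_le (hrs t hm)
  have hxm : x ∈ Icc 0 xs := ⟨hx0, hxs.le⟩
  have hdt : HasDerivWithinAt (fun s => f s x) (ft t x) (Iic t) t := by
    refine (hf.dt t x hm hxm).mono_of_mem_nhdsWithin ?_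
    exact Filter.mem_of_superset (Ioc_mem_nhdsLE h0) fun s hs => ⟨hs.1.le, hs.2.trans h1⟩
  have hft : 0 ≤ ft t x := by
    have e2 := (hr t hm).eventually (lt_mem_nhds hx1)
    rw [eventually_nhdsWithin_iff] at e2
    obtain ⟨ε, hε, hball⟩ := Metric.eventually_nhds_iff.1 e2
    refine MP.deriv_nonneg_of_past (a := max t0 (t - ε)) (max_lt h0 (by linarith)) hdt hz ?_
    intro s hs1 hs2
    have a1 : t0 ≤ s := (le_max_left _ _).trans hs1.le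
    have a2 : t - ε < s := (le_max_right _ _).trans_lt hs1
    refine hp s x a1 hs2.le hx0 (hball ?_ ⟨a1, hs2.le.trans h1⟩).le
    rw [Real.dist_eq, abs_lt]; constructor <;> linarith
  rcases hx0.eq_or_lt with h | h
  · subst h
    have h2 : fx t 0 ≤ 0 := by
      refine MP.deriv_nonpos_of_right (b := r t) hx1
        ((hf.dx t 0 hm hxm).mono (Icc_subset_Icc le_rfl (hrs t hm))) hz ?_
      exact fun y a b => hp t y h0.le le_rfl a.le b.le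
    rw [hZ0 rfl]; nlinarith
  · have hin : ∀ y, 0 < y → y < r t → Icc 0 xs ∈ nhds y := fun y a b =>
      Icc_mem_nhds a (b.trans_le (hrs t hm))
    obtain ⟨e1, e2⟩ := MP.interior_max (f := f t) (f1 := fx t) h hx1
      (fun y a b => (hf.dx t y hm ⟨a.le, b.le.trans (hrs t hm)⟩).hasDerivAt (hin y a b))
      ((hf.dxx t x hm hxm).hasDerivAt (hin x h hx1)) hz
      (fun y a b => hp t y h0.le le_rfl a.le b.le)
    rw [e1]; nlinarith

/-- Polynomial expressions. -/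
inductive Ex
  | v (i : ℕ) : Ex
  | c (r : ℝ) : Ex
  | add (a b : Ex) : Ex
  | sub (a b : Ex) : Ex
  | mul (a b : Ex) : Ex

instance : Add Ex := ⟨Ex.add⟩
instance : Sub Ex := ⟨Ex.sub⟩
instance : Mul Ex := ⟨Ex.mul⟩

/-- Value. -/
def ev (ρ : ℕ → ℝ) : Ex → ℝ
  | .v i => ρ i
  | .c r => r
  | .add a b => ev ρ a + ev ρ b
  | .sub a b => ev ρ a - ev ρ b
  | .mul a b => ev ρ a * ev ρ b

/-- First derivative. -/
def ev1 (ρ ρ1 : ℕ → ℝ) : Ex → ℝ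
  | .v i => ρ1 i
  | .c _ => 0
  | .add a b => ev1 ρ ρ1 a + ev1 ρ ρ1 b
  | .sub a b => ev1 ρ ρ1 a - ev1 ρ ρ1 b
  | .mul a b => ev1 ρ ρ1 a * ev ρ b + ev ρ a * ev1 ρ ρ1 b

/-- Second derivative. -/
def ev2 (ρ ρ1 ρ2 : ℕ → ℝ) : Ex → ℝ
  | .v i => ρ2 i
  | .c _ => 0
  | .add a b => ev2 ρ ρ1 ρ2 a + ev2 ρ ρ1 ρ2 b
  | .sub a b => ev2 ρ ρ1 ρ2 a - ev2 ρ ρ1 ρ2 b
  | .mul a b => ev2 ρ ρ1 ρ2 a * ev ρ b + 2 * (ev1 ρ ρ1 a * ev1 ρ ρ1 b) + ev ρ a * ev2 ρ ρ1 ρ2 b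

theorem ev_add (ρ : ℕ → ℝ) (a b : Ex) : ev ρ (a + b) = ev ρ a + ev ρ b := rfl
theorem ev_sub (ρ : ℕ → ℝ) (a b : Ex) : ev ρ (a - b) = ev ρ a - ev ρ b := rfl
theorem ev_mul (ρ : ℕ → ℝ) (a b : Ex) : ev ρ (a * b) = ev ρ a * ev ρ b := rfl
theorem ev_v (ρ : ℕ → ℝ) (i : ℕ) : ev ρ (.v i) = ρ i := rfl
theorem ev_c (ρ : ℕ → ℝ) (r : ℝ) : ev ρ (.c r) = r := rfl
theorem ev1_add (ρ ρ1 : ℕ → ℝ) (a b : Ex) : ev1 ρ ρ1 (a + b) = ev1 ρ ρ1 a + ev1 ρ ρ1 b := rfl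
theorem ev1_sub (ρ ρ1 : ℕ → ℝ) (a b : Ex) : ev1 ρ ρ1 (a - b) = ev1 ρ ρ1 a - ev1 ρ ρ1 b := rfl
theorem ev1_mul (ρ ρ1 : ℕ → ℝ) (a b : Ex) :
    ev1 ρ ρ1 (a * b) = ev1 ρ ρ1 a * ev ρ b + ev ρ a * ev1 ρ ρ1 b := rfl
theorem ev1_v (ρ ρ1 : ℕ → ℝ) (i : ℕ) : ev1 ρ ρ1 (.v i) = ρ1 i := rfl
theorem ev1_c (ρ ρ1 : ℕ → ℝ) (r : ℝ) : ev1 ρ ρ1 (.c r) = 0 := rfl
theorem ev2_add (ρ ρ1 ρ2 : ℕ → ℝ) (a b : Ex) :
    ev2 ρ ρ1 ρ2 (a + b) = ev2 ρ ρ1 ρ2 a + ev2 ρ ρ1 ρ2 b := rfl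
theorem ev2_sub (ρ ρ1 ρ2 : ℕ → ℝ) (a b : Ex) :
    ev2 ρ ρ1 ρ2 (a - b) = ev2 ρ ρ1 ρ2 a - ev2 ρ ρ1 ρ2 b := rfl
theorem ev2_mul (ρ ρ1 ρ2 : ℕ → ℝ) (a b : Ex) : ev2 ρ ρ1 ρ2 (a * b) =
    ev2 ρ ρ1 ρ2 a * ev ρ b + 2 * (ev1 ρ ρ1 a * ev1 ρ ρ1 b) + ev ρ a * ev2 ρ ρ1 ρ2 b := rfl
theorem ev2_v (ρ ρ1 ρ2 : ℕ → ℝ) (i : ℕ) : ev2 ρ ρ1 ρ2 (.v i) = ρ2 i := rfl
theorem ev2_c (ρ ρ1 ρ2 : ℕ → ℝ) (r : ℝ) : ev2 ρ ρ1 ρ2 (.c r) = 0 := rfl

theorem hasDeriv_ev {ρ : ℝ → ℕ → ℝ} {ρ1 : ℕ → ℝ} {s : Set ℝ} {x : ℝ}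
    (h : ∀ i, HasDerivWithinAt (fun y => ρ y i) (ρ1 i) s x) (p : Ex) :
    HasDerivWithinAt (fun y => ev (ρ y) p) (ev1 (ρ x) ρ1 p) s x := by
  induction p with
  | v i => exact h i
  | c r => exact hasDerivWithinAt_const _ _ _
  | add a b ha hb => exact ha.add hb
  | sub a b ha hb => exact ha.sub hb
  | mul a b ha hb => exact ha.mul hb

theorem hasDeriv_ev1 {ρ ρ1 : ℝ → ℕ → ℝ} {ρ2 : ℕ → ℝ} {s : Set ℝ} {x : ℝ}
    (h : ∀ i, HasDerivWithinAt (fun y => ρ y i) (ρ1 x i) s x)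
    (h1 : ∀ i, HasDerivWithinAt (fun y => ρ1 y i) (ρ2 i) s x) (p : Ex) :
    HasDerivWithinAt (fun y => ev1 (ρ y) (ρ1 y) p) (ev2 (ρ x) (ρ1 x) ρ2 p) s x := by
  induction p with
  | v i => exact h1 i
  | c r => exact hasDerivWithinAt_const _ _ _
  | add a b ha hb => exact ha.add hb
  | sub a b ha hb => exact ha.sub hb
  | mul a b ha hb =>
    have := (ha.mul (hasDeriv_ev h b)).add ((hasDeriv_ev h a).mul hb)
    refine HasDerivWithinAt.congr_deriv this ?_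
    simp only [ev2]; ring

theorem continuousOn_ev {X : Type*} [TopologicalSpace X] {ρ : X → ℕ → ℝ} {s : Set X}
    (h : ∀ i, ContinuousOn (fun y => ρ y i) s) (p : Ex) :
    ContinuousOn (fun y => ev (ρ y) p) s := by
  induction p with
  | v i => exact h i
  | c r => exact continuousOn_const
  | add a b ha hb => exact ha.add hb
  | sub a b ha hb => exact ha.sub hb
  | mul a b ha hb => exact ha.mul hb

theorem Pk.ev {ρ ρt ρ1 ρ2 : ℝ → ℝ → ℕ → ℝ}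
    (h : ∀ i, Pk t0 t1 xs (fun t x => ρ t x i) (fun t x => ρt t x i) (fun t x => ρ1 t x i)
      (fun t x => ρ2 t x i)) (p : Ex) :
    Pk t0 t1 xs (fun t x => In.ev (ρ t x) p) (fun t x => ev1 (ρ t x) (ρt t x) p)
      (fun t x => ev1 (ρ t x) (ρ1 t x) p) (fun t x => ev2 (ρ t x) (ρ1 t x) (ρ2 t x) p) where
  cont := continuousOn_ev (ρ := fun q : ℝ × ℝ => ρ q.1 q.2) (fun i => (h i).cont) p
  dt t x ht hx := hasDeriv_ev (ρ := fun s => ρ s x) (fun i => (h i).dt t x ht hx) p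
  dx t x ht hx := hasDeriv_ev (ρ := ρ t) (fun i => (h i).dx t x ht hx) p
  dxx t x ht hx := hasDeriv_ev1 (ρ := ρ t) (ρ1 := ρ1 t) (fun i => (h i).dx t x ht hx)
    (fun i => (h i).dxx t x ht hx) p

theorem _root_.Crest.Agent.N207.S.Jet.pk {u v : ℕ → ℝ → ℝ → ℝ} (h : Jet t0 t1 xs u v) (j : ℕ) :
    Pk t0 t1 xs (u j) (v j) (u (j + 1)) (u (j + 2)) :=
  ⟨h.cu j, h.dt j, h.dx j, h.dx (j + 1)⟩

end

end Crest.Agent.N207.S.In
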