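import Crest.Agent.N207.S.In.Ac

/-!
Row 207 (S0320): the scalar curvature is bounded (block POST).
-/

set_option autoImplicit false

open Set

namespace Crest.Agent.N207.S.In

noncomputable section

variable {e t0 t1 T X η C m : ℝ} {w wt k kt : ℕ → ℝ → ℝ → ℝ}

theorem r_gen (h : Su e t0 t1 T X η C m w wt k kt) {K K2 : ℝ} (hK : 8 ≤ K)
    (hKC : C < K * m ^ 2) (hK2 : 0 ≤ K2) {G G' : ℝ → ℝ}
    (hG : ∀ t ∈ Icc t0 t1, HasDerivAt G (G' t) t) (hm : ∀ t ∈ Icc t0 t1, 1 / m < K2 + G t)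
    (hstep : ∀ s y, s ∈ Icc t0 t1 → y ∈ Icc 0 X → |ev (env w k s y) (xRE e)| =
      bar T (40 * K ^ 2) (15 / 4) (-(5 / 4)) K2 (-(1 / 8)) G (w 0) s y →
      20000 * K ^ 2 + 2 * ev (env w k s y) (xRE e) ^ 2 <
        2 * η * (40 * K ^ 2 * ((T - s) ^ (15 / 4 : ℝ) * w 0 s y ^ (-(5 / 4) : ℝ))) / w 0 s y +
          K2 * w 0 s y ^ (-(1 / 8) : ℝ) * (1 / 9 / w 0 s y) + G' s)
    {t x : ℝ} (ht : t ∈ Icc t0 t1) (hx : x ∈ Icc 0 X) :
    |ev (env w k t x) (xRE e)| ≤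
      bar T (40 * K ^ 2) (15 / 4) (-(5 / 4)) K2 (-(1 / 8)) G (w 0) t x := by
  have hK0 : 0 < K := by linarith
  have hη := h.hη
  have hX0 : 0 < X := by linarith [h.hX, h.hT, ht.1, ht.2]
  have hedge : ∀ s y, s ∈ Icc t0 t1 → y ∈ Icc 0 X → m ≤ w 0 s y → ∀ b : Bool,
      (if b then 1 else -1 : ℝ) * ev (env w k s y) (xRE e) -
        bar T (40 * K ^ 2) (15 / 4) (-(5 / 4)) K2 (-(1 / 8)) G (w 0) s y < 0 := by
    intro s y hs hy hmw b
    have hw := h.sol.pos s y hs hy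
    have hτ : 0 < T - s := by linarith [hs.2, h.hT]
    have h1 := (h.good s y hs hy).bR
    rw [← ev_xRE] at h1
    have h2 := le_abs_self ((if b then 1 else -1 : ℝ) * ev (env w k s y) (xRE e))
    rw [abs_mul, abs_sg, one_mul] at h2
    have h3 : |ev (env w k s y) (xRE e)| ≤ 1 / m := by
      rw [le_div_iff₀ h.m0]
      nlinarith [abs_nonneg (ev (env w k s y) (xRE e))]
    have h4 : 1 ≤ w 0 s y ^ (-(1 / 8) : ℝ) :=
      Real.one_le_rpow_of_pos_of_le_one_of_nonpos hw (h.w1 s y hs hy).1 (by norm_num)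
    have h5 : 0 < 40 * K ^ 2 * ((T - s) ^ (15 / 4 : ℝ) * w 0 s y ^ (-(5 / 4) : ℝ)) := by
      positivity
    have h6 := mul_le_mul_of_nonneg_left h4 hK2
    simp only [bar]
    linarith [hm s hs]
  have main := MP.neg_of_no_touch (l := fun _ => 0) (r := fun _ => X) (t0 := t0) (t1 := t1)
    continuousOn_const continuousOn_const
    (fun (b : Bool) s y => (if b then 1 else -1 : ℝ) * ev (env w k s y) (xRE e) -
      bar T (40 * K ^ 2) (15 / 4) (-(5 / 4)) K2 (-(1 / 8)) G (w 0) s y) ?_ ?_ ?_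
    (fun _ _ _ => hX0)
  · exact abs_le_of_sg fun b => (main b t x ht.1 ht.2 hx.1 hx.2).le
  · intro b
    exact (((Pk.ev (pk_env h.sol) (xRE e)).cmul _).cont.sub
      (continuousOn_bar h.sol h.hT _ _ _ _ _ hG)).mono fun p hp => ⟨⟨hp.1, hp.2.1⟩, hp.2.2⟩
  · intro b y a c
    exact hedge t0 y ⟨le_rfl, ht.1.trans ht.2⟩ ⟨a, c⟩ (h.low0 y ⟨a, c⟩) b
  · intro b s y hs0 hs1 hy0 hy1 hz hp
    have hs : s ∈ Icc t0 t1 := ⟨hs0.le, hs1⟩
    have hy : y ∈ Icc 0 X := ⟨hy0, hy1⟩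
    rcases hy1.eq_or_lt with hyX | hyX
    · exact (hedge s y hs hy (hyX ▸ h.lowX s hs) b).ne hz
    have hτ : 0 < T - s := by linarith [hs.2, h.hT]
    have hw := h.sol.pos s y hs hy
    have hg := h.good s y hs hy
    have hzz : 0 ≤ 1 - y * k 0 s y := by linarith [(abs_le.1 hg.hk).2]
    have h1 := touch_bar h.sol h.he h.hT (40 * K ^ 2) (15 / 4) (-(5 / 4)) K2 (-(1 / 8)) _ hG
      (xRE e) (r := fun _ => X) continuousOn_const (fun _ _ => le_rfl) hs0 hs1 hy0 hyX hzz hz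
      (fun s' y' a b' c d => hp b s' y' a b' c d)
    have h2 : |ev (env w k s y) (xRE e)| =
        bar T (40 * K ^ 2) (15 / 4) (-(5 / 4)) K2 (-(1 / 8)) G (w 0) s y := by
      refine le_antisymm (abs_le_of_sg fun b' => hp b' s y hs0.le le_rfl hy0 hy1) ?_
      have h2 := le_abs_self ((if b then 1 else -1 : ℝ) * ev (env w k s y) (xRE e))
      rw [abs_mul, abs_sg, one_mul] at h2
      linarith
    have h3 := hstep s y hs hy h2
    have h4 : (if b then 1 else -1 : ℝ) * box e w wt k kt (xRE e) s y ≤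
        box e w wt k kt (xRE e) s y := by
      have := le_abs_self ((if b then 1 else -1 : ℝ) * box e w wt k kt (xRE e) s y)
      rwa [abs_mul, abs_sg, one_mul, abs_of_nonneg hg.hR0] at this
    have h5 := hg.hR1
    rw [← ev_xAH, ← ev_xCH, ← ev_xRE] at h5
    obtain ⟨h6, h7⟩ := ac_bound h hK hKC hs hy
    have h8 : 2 * e * y * (1 - y * k 0 s y) * w 1 s y ^ 2 / w 0 s y ≤ η := by
      rw [div_le_iff₀ hw]; exact hg.hZ
    generalize 2 * e * y * (1 - y * k 0 s y) * w 1 s y ^ 2 / w 0 s y = ζ at h1 h8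
    have h9 : K2 * w 0 s y ^ (-(1 / 8) : ℝ) * (1 / 9 / w 0 s y) ≤
        -(K2 * w 0 s y ^ (-(1 / 8) : ℝ) * ((-(1 / 8) + (-(1 / 8)) ^ 2 * ζ) / w 0 s y)) := by
      have : 1 / 9 / w 0 s y ≤ -(-(1 / 8) + (-(1 / 8)) ^ 2 * ζ) / w 0 s y :=
        div_le_div_of_nonneg_right (by linarith) hw.le
      rw [neg_div] at this
      rw [← mul_neg]
      exact mul_le_mul_of_nonneg_left this (by positivity)
    have hw1 := (h.w1 s y hs hy).1
    obtain ⟨u, hu, e1, e2, e3, e4, -⟩ := rt8' hw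
    obtain ⟨v, hv, f1, -, -, -, -, f2, f3, -⟩ := rt8' hτ
    have hu1 : u ≤ 1 := by
      simpa using le_of_pow8 (s := u) (u := 1) (a := 1) zero_le_one zero_le_one
        (by rw [← e1]; simpa using hw1)
    rw [e2, e3, f2] at h6 h7
    have h10 := r_core hη hu hu1 hv h8 hK0 h6 h7
    rw [← e4, ← f3, ← e1, ← f1] at h10
    linarith

theorem r_bound (h : Su e t0 t1 T X η C m w wt k kt) {K c : ℝ} (hK : 8 ≤ K)
    (hKC : C < K * m ^ 2) (hc : 0 < c) (hτ : T - t0 ≤ 20)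
    (hlow : ∀ t x, t ∈ Icc t0 t1 → x ∈ Icc 0 X → c * (T - t) ^ 3 ≤ w 0 t x) :
    ∃ C' : ℝ, (∀ t x, t ∈ Icc t0 t1 → x ∈ Icc 0 X → |ev (env w k t x) (xRE e)| ≤ C') ∧
      C' = 40 * K ^ 2 * c ^ (-(5 / 4) : ℝ) + (1 / m + 1 + 20 * (400001 * K ^ 2 +
        4 * (20 * (40 * K ^ 2 * c ^ (-(5 / 4) : ℝ)) ^ 2 +
          ((1 / m + 300000 * K ^ 2) * c ^ (-(1 / 8) : ℝ)) ^ 2))) := by
  have hK0 : 0 < K := by linarith
  have hη := h.hη
  have hm0 := h.m0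
  refine ⟨_, fun t x ht hx => ?_, rfl⟩
  have hP1 : ∀ s y, s ∈ Icc t0 t1 → y ∈ Icc 0 X →
      (T - s) ^ (15 / 4 : ℝ) * w 0 s y ^ (-(5 / 4) : ℝ) ≤ c ^ (-(5 / 4) : ℝ) ∧
      w 0 s y ^ (-(1 / 8) : ℝ) ≤ c ^ (-(1 / 8) : ℝ) * (T - s) ^ (-(3 / 8) : ℝ) := by
    intro s y hs hy
    have hτ : 0 < T - s := by linarith [hs.2, h.hT]
    have h1 := hlow s y hs hy
    have h2 : ∀ r : ℝ, r ≤ 0 → w 0 s y ^ r ≤ c ^ r * (T - s) ^ (3 * r) := fun r hr => by
      refine (Real.rpow_le_rpow_of_nonpos (by positivity) h1 hr).trans_eq ?_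
      rw [Real.mul_rpow hc.le (by positivity), Real.rpow_mul hτ.le]; norm_num
    constructor
    · refine (mul_le_mul_of_nonneg_left (h2 _ (by norm_num)) (by positivity)).trans_eq ?_
      rw [mul_left_comm, ← Real.rpow_add hτ]; norm_num
    · refine (h2 _ (by norm_num)).trans_eq ?_
      norm_num
  -- first pass
  have s1 : ∀ s y, s ∈ Icc t0 t1 → y ∈ Icc 0 X → |ev (env w k s y) (xRE e)| ≤
      40 * K ^ 2 * c ^ (-(5 / 4) : ℝ) +
        (1 / m + 300000 * K ^ 2) * c ^ (-(1 / 8) : ℝ) * (T - s) ^ (-(3 / 8) : ℝ) := by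
    intro s y hs hy
    have := r_gen h hK hKC (K2 := 1 / m + 300000 * K ^ 2) (by positivity)
      (G := fun _ => 0) (G' := fun _ => 0) (fun _ _ => hasDerivAt_const _ _)
      (fun _ _ => by nlinarith) ?_ hs hy
    · refine this.trans ?_
      simp only [bar, add_zero, mul_assoc (1 / m + 300000 * K ^ 2)]
      exact add_le_add (mul_le_mul_of_nonneg_left (hP1 s y hs hy).1 (by positivity))
        (mul_le_mul_of_nonneg_left (hP1 s y hs hy).2 (by positivity))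
    intro s y hs hy hb
    have hw := h.sol.pos s y hs hy
    have hw1 := (h.w1 s y hs hy).1
    have h1 := (h.good s y hs hy).bR
    rw [← ev_xRE] at h1
    have h4 : 1 ≤ w 0 s y ^ (-(1 / 8) : ℝ) :=
      Real.one_le_rpow_of_pos_of_le_one_of_nonpos hw hw1 (by norm_num)
    simp only [bar, add_zero] at hb ⊢
    generalize 40 * K ^ 2 * ((T - s) ^ (15 / 4 : ℝ) * w 0 s y ^ (-(5 / 4) : ℝ)) = P1 at *
    have h5 : 300000 * K ^ 2 ≤ (1 / m + 300000 * K ^ 2) * w 0 s y ^ (-(1 / 8) : ℝ) := by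
      have : 0 < 1 / m := by positivity
      nlinarith [sq_nonneg K]
    generalize (1 / m + 300000 * K ^ 2) * w 0 s y ^ (-(1 / 8) : ℝ) = P2 at *
    have h6 : ev (env w k s y) (xRE e) ^ 2 ≤ η * (P1 + P2) / w 0 s y := by
      rw [le_div_iff₀ hw, ← sq_abs, ← hb]
      nlinarith [abs_nonneg (ev (env w k s y) (xRE e))]
    have hK2 : 0 < K ^ 2 := by positivity
    have h7 : P2 ≤ P2 / w 0 s y := by rw [le_div_iff₀ hw]; nlinarith
    have h8 : η * (P2 / w 0 s y) ≤ 1 / 1000 * (P2 / w 0 s y) :=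
      mul_le_mul_of_nonneg_right hη (by linarith)
    have e1 : η * (P1 + P2) / w 0 s y = η * P1 / w 0 s y + η * (P2 / w 0 s y) := by ring
    have e2 : 2 * η * P1 / w 0 s y = 2 * (η * P1 / w 0 s y) := by ring
    have e3 : P2 * (1 / 9 / w 0 s y) = 1 / 9 * (P2 / w 0 s y) := by ring
    rw [e2, e3]; rw [e1] at h6
    linarith
  -- second pass
  obtain ⟨C3, hC3⟩ : ∃ C3, C3 = 40 * K ^ 2 * c ^ (-(5 / 4) : ℝ) := ⟨_, rfl⟩
  obtain ⟨C4, hC4⟩ : ∃ C4, C4 = (1 / m + 300000 * K ^ 2) * c ^ (-(1 / 8) : ℝ) := ⟨_, rfl⟩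
  rw [← hC3, ← hC4] at s1 ⊢
  obtain ⟨C6, hC6⟩ : ∃ C6, C6 = 400001 * K ^ 2 + 4 * (20 * C3 ^ 2 + C4 ^ 2) := ⟨_, rfl⟩
  rw [← hC6]
  have hC60 : 0 < C6 := by rw [hC6]; positivity
  have hq : ∀ s ∈ Icc t0 t1, (T - s) ^ (1 / 4 : ℝ) ≤ 4 ∧
      1 / 20 ≤ (T - s) ^ (1 / 4 : ℝ) / (T - s) ∧
      ((T - s) ^ (-(3 / 8) : ℝ)) ^ 2 = (T - s) ^ (1 / 4 : ℝ) / (T - s) := by
    intro s hs
    have hτs : 0 < T - s := by linarith [hs.2, h.hT]
    have hτ1 : T - s ≤ 20 := by linarith [hs.1]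
    obtain ⟨v, hv, f1, f2, f3⟩ := rt8 hτs
    have g1 : (T - s) ^ (1 / 4 : ℝ) = v ^ 2 := by rw [← f2 2]; norm_num
    have g2 : (T - s) ^ (-(3 / 8) : ℝ) = (v ^ 3)⁻¹ := by rw [← f3 3]; norm_num
    have hv2 : v ≤ 3 / 2 := by
      simpa using le_of_pow8 (s := v) (u := 1) (a := 3 / 2) zero_le_one (by norm_num)
        (by rw [← f1]; norm_num; linarith)
    rw [g1, g2, f1]
    refine ⟨by nlinarith, ?_, by field_simp⟩
    have : v ^ 6 ≤ 20 := (pow_le_pow_left₀ hv.le hv2 6).trans (by norm_num)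
    rw [le_div_iff₀ (by positivity)]
    calc 1 / 20 * v ^ 8 = v ^ 6 / 20 * v ^ 2 := by ring
      _ ≤ 1 * v ^ 2 := mul_le_mul_of_nonneg_right (by linarith) (by positivity)
      _ = v ^ 2 := one_mul _
  have := r_gen h hK hKC (K2 := 0) le_rfl
    (G := fun s => 1 / m + 1 + 20 * C6 - 4 * C6 * (T - s) ^ (1 / 4 : ℝ))
    (G' := fun s => C6 * ((T - s) ^ (1 / 4 : ℝ) / (T - s))) (fun s hs => ?_)
    (fun s hs => by nlinarith [(hq s hs).1]) ?_ ht hx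
  · refine this.trans ?_
    simp only [bar, zero_mul, add_zero]
    have h1 := mul_le_mul_of_nonneg_left (hP1 t x ht hx).1 (by positivity : 0 ≤ 40 * K ^ 2)
    have hτs : 0 < T - t := by linarith [ht.2, h.hT]
    have h2 : 0 ≤ 4 * C6 * (T - t) ^ (1 / 4 : ℝ) := by positivity
    linarith
  · refine HasDerivAt.congr_deriv
      (((hasDerivAt_tau (1 / 4) (hs.2.trans_lt h.hT)).const_mul (4 * C6)).const_sub _) ?_
    ring
  · intro s y hs hy _
    have hw := h.sol.pos s y hs hy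
    have hτs : 0 < T - s := by linarith [hs.2, h.hT]
    have hη0 : 0 ≤ η := h.he.trans (h.good s y hs hy).he
    obtain ⟨-, q2, q3⟩ := hq s hs
    have h1 := pow_le_pow_left₀ (abs_nonneg _) (s1 s y hs hy) 2
    rw [sq_abs] at h1
    have h2 : 0 ≤ 2 * η * (40 * K ^ 2 * ((T - s) ^ (15 / 4 : ℝ) * w 0 s y ^ (-(5 / 4) : ℝ))) /
        w 0 s y := by positivity
    have h3 : (C3 + C4 * (T - s) ^ (-(3 / 8) : ℝ)) ^ 2 ≤
        2 * C3 ^ 2 + 2 * C4 ^ 2 * ((T - s) ^ (1 / 4 : ℝ) / (T - s)) := by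
      rw [← q3]; nlinarith [sq_nonneg (C3 - C4 * (T - s) ^ (-(3 / 8) : ℝ))]
    generalize (T - s) ^ (1 / 4 : ℝ) / (T - s) = Q at *
    have hK2 : 0 < K ^ 2 := by positivity
    have h4 := mul_le_mul_of_nonneg_left q2 hK2.le
    have h5 := mul_le_mul_of_nonneg_left q2 (sq_nonneg C3)
    simp only [zero_mul, add_zero]
    rw [hC6]
    linarith

theorem rpow_split {x : ℝ} (hx : 0 < x) : x ^ (11 / 4 : ℝ) = x ^ 2 * x ^ (3 / 4 : ℝ) ∧
    x ^ (7 / 4 : ℝ) = x * x ^ (3 / 4 : ℝ) := by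
  obtain ⟨u, hu, e1, e2, -⟩ := rt8 hx
  have a1 : x ^ (11 / 4 : ℝ) = u ^ 22 := by rw [← e2 22]; norm_num
  have a2 : x ^ (7 / 4 : ℝ) = u ^ 14 := by rw [← e2 14]; norm_num
  have a3 : x ^ (3 / 4 : ℝ) = u ^ 6 := by rw [← e2 6]; norm_num
  rw [a1, a2, a3, e1]
  constructor <;> ring

theorem post : PostStmt := by
  intro C0
  obtain ⟨e0, C, he0, hC1, hgood⟩ := exists_good C0 (1 / 1000) (by norm_num)
  refine ⟨e0, he0, ?_⟩
  intro e t0 T X c w wt k kt he hee hT hX hX1 hc hsol hin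
  have hX0 : 0 < X := by linarith
  have hτ : T - t0 ≤ 20 := by linarith
  obtain ⟨c', hc'⟩ : ∃ c', c' = min c (1 / 100000) := ⟨_, rfl⟩
  have hc0 : 0 < c' := by rw [hc']; positivity
  obtain ⟨m, hm⟩ : ∃ m, m = min (c' * (T - t0) ^ 3) (X / 2) := ⟨_, rfl⟩
  have hm0 : 0 < m := by
    have : 0 < T - t0 := by linarith
    rw [hm]; positivity
  -- outer region
  have hout : ∀ t ∈ Ico t0 T, ∀ x ∈ Icc ((T - t) / 200) X, |w 0 t x - x| ≤ x / 10 := by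
    intro t ht x hx
    have hx0 : 0 < x := by linarith [hx.1, ht.2]
    have h1 := ((hsol t ht).2.2.1 x hx).1
    have h2 : x ^ (3 / 4 : ℝ) ≤ 1 := Real.rpow_le_one hx0.le (by linarith [hx.2]) (by norm_num)
    rw [(rpow_split hx0).1] at h1
    have h3 := mul_le_mul_of_nonneg_left h2 (sq_nonneg x)
    nlinarith [hx.2]
  have hinn : ∀ t ∈ Ico t0 T, ∀ x ∈ Icc 0 ((T - t) / 200), 60 * w 0 t x ≤ T - t := by
    intro t ht x hx
    have hr : (T - t) / 200 ≤ X := by linarith [ht.1]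
    have hr0 : 0 ≤ (T - t) / 200 := by linarith [ht.2]
    have h1 := abs_le.1 (hout t ht _ ⟨le_rfl, hr⟩)
    have h2 := Convex.norm_image_sub_le_of_norm_hasDerivWithin_le (f := w 0 t) (f' := w 1 t)
      (C := 2) (s := Icc 0 ((T - t) / 200))
      (fun y hy => ((hsol t ht).1.jw.dx 0 t y ⟨ht.1, le_rfl⟩ ⟨hy.1, hy.2.trans hr⟩).mono
        (Icc_subset_Icc le_rfl hr))
      (fun y hy => (hin t ht y hy).2.2) (convex_Icc _ _) ⟨hr0, le_rfl⟩ hx
    rw [Real.norm_eq_abs, Real.norm_eq_abs, abs_of_nonpos (by linarith [hx.2] :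
      x - (T - t) / 200 ≤ 0)] at h2
    linarith [(abs_le.1 h2).2, hx.1, ht.2]
  have hlow : ∀ t ∈ Ico t0 T, ∀ x ∈ Icc 0 X, c' * (T - t) ^ 3 ≤ w 0 t x := by
    intro t ht x hx
    have hτt : 0 < T - t := by linarith [ht.2]
    rcases le_total x ((T - t) / 200) with h1 | h1
    · refine le_trans ?_ (hin t ht x ⟨hx.1, h1⟩).2.1
      exact mul_le_mul_of_nonneg_right (hc' ▸ min_le_left _ _) (by positivity)
    · have h2 := abs_le.1 (hout t ht x ⟨h1, hx.2⟩)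
      have h3 : c' * (T - t) ^ 3 ≤ 1 / 100000 * (T - t) ^ 3 :=
        mul_le_mul_of_nonneg_right (hc' ▸ min_le_right _ _) (by positivity)
      have h4 : (T - t) ^ 2 ≤ 20 ^ 2 := pow_le_pow_left₀ hτt.le (by linarith [ht.1]) 2
      nlinarith
  have hsu : ∀ t1 ∈ Ico t0 T, Su e t0 t1 T X (1 / 1000) C m w wt k kt := by
    intro t1 ht1
    have hI : ∀ t ∈ Icc t0 t1, t ∈ Ico t0 T := fun t ht => ⟨ht.1, ht.2.trans_lt ht1.2⟩
    have hg := hgood he hee hX0 (hsol t1 ht1).1 (hsol t1 ht1).2.1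
    refine ⟨(hsol t1 ht1).1, he.le, le_rfl, ht1.2, hX, hm0, hg, fun t x ht hx => ?_,
      fun t x ht hx => hinn t (hI t ht) x hx, fun t x ht hx => ?_, fun x hx => ?_, fun t ht => ?_⟩
    · rcases le_total x ((T - t) / 200) with h1 | h1
      · have := hinn t (hI t ht) x ⟨hx.1, h1⟩
        have := (hin t (hI t ht) x ⟨hx.1, h1⟩).1
        constructor <;> linarith [ht.1, hx.1]
      · have h2 := abs_le.1 (hout t (hI t ht) x ⟨h1, hx.2⟩)
        constructor <;> linarith [hx.2]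
    · have hx0 : 0 < x := by linarith [hx.1, (hI t ht).2]
      have hx' : x ∈ Icc 0 X := ⟨hx0.le, hx.2⟩
      have hw := (hsol t1 ht1).1.pos t x ht hx'
      obtain ⟨a1, a2, a3⟩ := (hsol t (hI t ht)).2.2.1 x hx
      rw [(rpow_split hx0).1] at a1
      rw [(rpow_split hx0).2] at a2
      have h2 := ((hsol t1 ht1).2.1 t x ht hx').2.2.2.2
      have h3 := outer_a (hg t x ht hx') le_rfl he.le hw hx0.le h2 (by positivity) a1 a2 a3
      have h4 : x ^ (3 / 4 : ℝ) ≤ 2 * w 0 t x ^ (3 / 4 : ℝ) := by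
        refine (Real.rpow_le_rpow hx0.le h2 (by norm_num)).trans ?_
        rw [Real.mul_rpow (by norm_num) hw.le]
        refine mul_le_mul_of_nonneg_right ?_ (by positivity)
        simpa using Real.rpow_le_rpow_of_exponent_le (by norm_num : (1 : ℝ) ≤ 2)
          (by norm_num : (3 / 4 : ℝ) ≤ 1)
      rw [ev_xAH, ev_xCH]
      linarith
    · exact (hm ▸ min_le_left _ _ : m ≤ _).trans (hlow t0 ⟨le_rfl, hT⟩ x hx)
    · have := ((hsol t1 ht1).2.1 t X ht ⟨hX0.le, le_rfl⟩).2.2.2.2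
      have h2 : m ≤ X / 2 := hm ▸ min_le_right _ _
      linarith
  obtain ⟨K, hK⟩ : ∃ K, K = 8 + C / m ^ 2 := ⟨_, rfl⟩
  have hK8 : 8 ≤ K := by
    have : 0 ≤ C / m ^ 2 := by positivity
    linarith
  have hKC : C < K * m ^ 2 := by
    have : 0 < m ^ 2 := by positivity
    rw [hK, add_mul, div_mul_cancel₀ _ this.ne']; linarith
  refine ⟨(40 * K ^ 2 * c' ^ (-(5 / 4) : ℝ) + (1 / m + 1 + 20 * (400001 * K ^ 2 +
        4 * (20 * (40 * K ^ 2 * c' ^ (-(5 / 4) : ℝ)) ^ 2 +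
          ((1 / m + 300000 * K ^ 2) * c' ^ (-(1 / 8) : ℝ)) ^ 2)))) / e, fun t ht x hx => ?_⟩
  obtain ⟨C', h1, h2⟩ := r_bound (hsu t ht) hK8 hKC hc0 hτ
    fun s y hs hy => hlow s ⟨hs.1, hs.2.trans_lt ht.2⟩ y hy
  have h3 := h1 t x ⟨ht.1, le_rfl⟩ hx
  rw [ev_xRE, rE_eq he.ne', abs_mul, abs_of_pos he, h2] at h3
  rw [le_div_iff₀' he]
  exact h3

end

end Crest.Agent.N207.S.In
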